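import Vale.Agent.P137.Passage.Truncation
import Vale.Agent.P137.Passage.Density

/-!
P137: from the bound for truncated operators on regular inputs to the maximal function of a
Sobolev function.
-/

open MeasureTheory Metric Set Filter
open scoped ENNReal Topology ContDiff CompactlySupported

noncomputable section

namespace Vale.Agent.P137

variable {d : ℕ}

lemma measurable_maxFun (f : X d → ℝ) : Measurable (maxFun f) := by
  refine LowerSemicontinuous.measurable fun x t ht => ?_
  simp only [maxFun, lt_iSup_iff] at ht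
  obtain ⟨c, r, hx, hlt⟩ := ht
  filter_upwards [isOpen_ball.mem_nhds hx] with y hy
  exact lt_of_lt_of_le hlt (le_iSup_of_le c (le_iSup_of_le r (le_iSup_of_le hy le_rfl)))

/-- An inequality for increments passes to `L¹` limits on sets of finite measure. -/
lemma setLIntegral_shift_le_of_tendsto {u : X d → ℝ} {us : ℕ → X d → ℝ} (_hum : Measurable u)
    (husm : ∀ k, Measurable (us k)) {err : ℕ → X d → ℝ≥0∞} (herr : ∀ k x, ‖us k x - u x‖ₑ ≤ err k x)
    (hem : ∀ k, Measurable (err k)) {O : Set (X d)} (v : X d) {b : ℝ≥0∞}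
    (h1 : Tendsto (fun k => ∫⁻ x in O, err k x) atTop (𝓝 0))
    (h2 : Tendsto (fun k => ∫⁻ x in O, err k (x + v)) atTop (𝓝 0))
    (hb : ∀ᶠ k in atTop, ∫⁻ x in O, ‖us k (x + v) - us k x‖ₑ ≤ b) :
    ∫⁻ x in O, ‖u (x + v) - u x‖ₑ ≤ b := by
  have hlim : Tendsto (fun k => b + ((∫⁻ x in O, err k x) + ∫⁻ x in O, err k (x + v))) atTop
      (𝓝 b) := by
    simpa using (tendsto_const_nhds (x := b)).add (h1.add h2)
  refine ge_of_tendsto hlim ?_
  filter_upwards [hb] with k hk
  refine le_trans ?_ (add_le_add hk le_rfl)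
  rw [← lintegral_add_left (hem k), ← lintegral_add_left (by fun_prop)]
  refine lintegral_mono fun x => ?_
  calc ‖u (x + v) - u x‖ₑ
      = ‖(us k (x + v) - us k x) + ((us k x - u x) + -(us k (x + v) - u (x + v)))‖ₑ := by
        congr 1; ring
    _ ≤ _ := le_trans (enorm_add_le _ _) (add_le_add le_rfl
        (le_trans (enorm_add_le _ _) (add_le_add (herr k x) (by rw [enorm_neg]; exact herr k _))))

namespace Data

variable (D : Data d)

/-- The truncations of the maximal function. -/
def U (n : ℕ) : X d → ℝ := rangeMax (n + 1) D.h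

/-- The maximal function as a real function. -/
def M (x : X d) : ℝ := (maxFun D.f x).toReal

lemma measurable_U (n : ℕ) : Measurable (D.U n) :=
  measurable_rangeMax (by omega) D.integrable_h D.measurable_h

lemma U_nonneg (n : ℕ) (x : X d) : 0 ≤ D.U n x := le_trans (D.h_nonneg x) (le_rangeMax _ _ _)

lemma U_mono (x : X d) : Monotone fun n => D.U n x := fun _ _ h =>
  rangeMax_mono (by omega) (by omega) D.integrable_h x

lemma ae_iSup : ∀ᵐ x, ⨆ n, ENNReal.ofReal (D.U n x) = maxFun D.f x := by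
  filter_upwards [ae_ofReal_abs_le_maxFun D.hf] with x hx
  exact le_antisymm
    (iSup_le fun n => ofReal_rangeMax_le_maxFun (by omega) D.integrable_h (fun y => rfl) hx)
    (maxFun_le_iSup D.integrable_h (fun y => rfl) x)

lemma reg_measurable (k : ℕ) : Measurable (D.reg k) := (D.coreFun_reg k).1.continuous.measurable

/-- Bounds for regular approximations pass to the truncations. -/
lemma shift_U_of_reg (n : ℕ) {O : Set (X d)} (hfin : volume O ≠ ⊤) (v : X d) {b : ℝ≥0∞}
    (hb : ∀ᶠ k in atTop,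
      ∫⁻ x in O, ‖rangeMax (n + 1) (D.reg k) (x + v) - rangeMax (n + 1) (D.reg k) x‖ₑ ≤ b) :
    ∫⁻ x in O, ‖D.U n (x + v) - D.U n x‖ₑ ≤ b := by
  have hm := D.measurable_h
  have hmk := D.reg_measurable
  set e : ℕ → ℝ≥0∞ := fun k => ∫⁻ y, ‖D.reg k y - D.h y‖ₑ with he
  set err : ℕ → X d → ℝ≥0∞ :=
    fun k x => ‖D.reg k x - D.h x‖ₑ + ENNReal.ofReal (Kn d (n + 1)) * e k with herr
  have hsmall : ∀ a : X d, Tendsto (fun k => ∫⁻ x in O, err k (x + a)) atTop (𝓝 0) := by
    intro a
    have hl : Tendsto (fun k => e k + ENNReal.ofReal (Kn d (n + 1)) * e k * volume O) atTop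
        (𝓝 0) := by
      have h0 : Tendsto e atTop (𝓝 0) := D.tendsto_reg
      simpa using h0.add (ENNReal.Tendsto.mul_const
        (ENNReal.Tendsto.const_mul h0 (Or.inr ENNReal.ofReal_ne_top)) (Or.inr hfin))
    refine tendsto_of_tendsto_of_tendsto_of_le_of_le tendsto_const_nhds hl (fun k => zero_le)
      fun k => ?_
    simp only [herr]
    rw [lintegral_add_left (by fun_prop), setLIntegral_const]
    refine add_le_add (le_trans (setLIntegral_le_lintegral _ _) ?_) le_rfl
    rw [lintegral_add_right_eq_self (fun x => ‖D.reg k x - D.h x‖ₑ) a]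
  refine setLIntegral_shift_le_of_tendsto (D.measurable_U n)
    (fun k => measurable_rangeMax (by omega) (D.coreFun_reg k).2.1 (hmk k))
    (err := err) (fun k x => rangeMax_lip (by omega) (D.coreFun_reg k).2.1 D.integrable_h x)
    (fun k => by simp only [herr]; fun_prop) v (by simpa using hsmall 0) (hsmall v) hb

end Data

/-- The hypothesis on the truncated operators, in dimension `d` with constant `C`. -/
def CoreBoundAt (d : ℕ) (C : ℝ) : Prop :=
  ∀ f : X d → ℝ, CoreFun f → ∀ (n : ℕ) (v : X d),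
    (∫⁻ x, ‖rangeMax n f (x + v) - rangeMax n f x‖ₑ ≤
      ENNReal.ofReal (C * ‖v‖) * ∫⁻ x, ‖fderiv ℝ f x‖ₑ) ∧
    ∀ (j : ℤ) (O : Set (X d)), MeasurableSet O →
      ∫⁻ x in O, ‖rangeMax n f (x + v) - rangeMax n f x‖ₑ ≤ ENNReal.ofReal (C * ‖v‖) *
        (ENNReal.ofReal (((2:ℝ) ^ j) ^ d)⁻¹ * (∫⁻ x, ‖fderiv ℝ f x‖ₑ) * volume O +
          (∫⁻ x in thickening (C * (2:ℝ) ^ j + ‖v‖) O, ‖fderiv ℝ f x‖ₑ) +
          tail f (C * (2:ℝ) ^ j))

lemma tail_mono (f : X d → ℝ) {δ δ' : ℝ} (h : δ ≤ δ') : tail f δ ≤ tail f δ' := by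
  refine ENNReal.tsum_le_tsum fun k => ?_
  split_ifs with h1 h2
  · exact le_rfl
  · exact absurd (lt_of_lt_of_le h1 h) h2
  · exact zero_le
  · exact le_rfl

namespace Data

variable (D : Data d) {C : ℝ}

lemma shift_U (hC : CoreBoundAt d C) (n : ℕ) (v : X d) :
    ∫⁻ x, ‖D.U n (x + v) - D.U n x‖ₑ ≤ ENNReal.ofReal (C * ‖v‖) * (d * ∫⁻ x, D.W x) := by
  have hball : ∀ N : ℕ, ∫⁻ x in ball 0 (N:ℝ), ‖D.U n (x + v) - D.U n x‖ₑ ≤
      ENNReal.ofReal (C * ‖v‖) * (d * ∫⁻ x, D.W x) := fun N =>
    D.shift_U_of_reg n measure_ball_lt_top.ne v (Eventually.of_forall fun k =>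
      le_trans (setLIntegral_le_lintegral _ _) (le_trans ((hC _ (D.coreFun_reg k) (n + 1) v).1)
        (mul_le_mul_right (D.lintegral_fderiv_reg k) _)))
  rw [← setLIntegral_univ, ← iUnion_ball_nat (0 : X d),
    setLIntegral_iUnion_of_directed _ (Monotone.directed_le fun a b h =>
      ball_subset_ball (Nat.cast_le.2 h))]
  exact iSup_le hball

lemma shift_U_local (hC : CoreBoundAt d C) (n : ℕ) {O : Set (X d)} (hO : MeasurableSet O)
    (hfin : volume O ≠ ⊤) (v : X d) (j : ℤ) {ρ : ℝ} (hρ : C * (2:ℝ) ^ j + ‖v‖ < ρ) {ε : ℝ≥0∞}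
    (hε : ∀ᶠ k in atTop, tail (D.reg k) (C * (2:ℝ) ^ j) ≤ ε) :
    ∫⁻ x in O, ‖D.U n (x + v) - D.U n x‖ₑ ≤ ENNReal.ofReal (C * ‖v‖) *
      (ENNReal.ofReal (((2:ℝ) ^ j) ^ d)⁻¹ * (d * ∫⁻ x, D.W x) * volume O +
        d * (∫⁻ x in thickening ρ O, D.W x) + ε) := by
  refine D.shift_U_of_reg n hfin v ?_
  filter_upwards [hε, (tendsto_order.1 tendsto_rad).2 (ρ - (C * (2:ℝ) ^ j + ‖v‖)) (by linarith)]
    with k hk hk'
  refine le_trans ((hC _ (D.coreFun_reg k) (n + 1) v).2 j O hO) ?_
  gcongr
  · exact D.lintegral_fderiv_reg k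
  · refine le_trans (D.setLIntegral_fderiv_reg isOpen_thickening.measurableSet k hk') ?_
    refine mul_le_mul_right (lintegral_mono_set ?_) _
    exact (thickening_thickening_subset _ _ _).trans (thickening_mono (by linarith) _)

lemma setLIntegral_maxFun_ball (hd : 1 ≤ d) (hC0 : 0 ≤ C) (hC : CoreBoundAt d C) {ρ : ℝ}
    (hρ : 0 < ρ) : ∫⁻ x in ball 0 ρ, maxFun D.f x ≠ ⊤ := by
  set L : ℝ≥0∞ := ENNReal.ofReal C * (d * ∫⁻ x, D.W x) with hL
  have hLt : L ≠ ⊤ := ENNReal.mul_ne_top ENNReal.ofReal_ne_top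
    (ENNReal.mul_ne_top (ENNReal.natCast_ne_top d) D.lintegral_W_ne_top)
  have hb : ∀ n, ∫⁻ x in ball 0 ρ, ENNReal.ofReal (D.U n x) ≤ ENNReal.ofReal (3 * ρ) * L := by
    intro n
    refine le_trans (le_of_eq ?_) (setLIntegral_ball_le_of_shift hd (D.measurable_U n)
      (integrable_rangeMax (by omega) D.integrable_h D.measurable_h) (fun v => ?_) hρ)
    · exact lintegral_congr fun x => (Real.enorm_eq_ofReal (D.U_nonneg n x)).symm
    · refine le_trans (D.shift_U hC n v) (le_of_eq ?_)
      rw [hL, ENNReal.ofReal_mul hC0]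
      ring
  refine ne_top_of_le_ne_top (ENNReal.mul_ne_top ENNReal.ofReal_ne_top hLt)
    (b := ENNReal.ofReal (3 * ρ) * L) ?_
  rw [← lintegral_congr_ae (ae_restrict_of_ae D.ae_iSup),
    lintegral_iSup (fun n => (D.measurable_U n).ennreal_ofReal)
      (fun a b h x => ENNReal.ofReal_le_ofReal (D.U_mono x h))]
  exact iSup_le hb

lemma ae_finite (hd : 1 ≤ d) (hC0 : 0 ≤ C) (hC : CoreBoundAt d C) :
    ∀ᵐ x, maxFun D.f x < ⊤ := by
  have h : ∀ N : ℕ, ∀ᵐ x, x ∈ ball (0 : X d) ((N:ℝ) + 1) → maxFun D.f x < ⊤ := fun N =>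
    (ae_restrict_iff' measurableSet_ball).1 (ae_lt_top (measurable_maxFun _)
      (D.setLIntegral_maxFun_ball hd hC0 hC (by positivity)))
  filter_upwards [ae_all_iff.2 h] with x hx
  refine hx ⌈‖x‖⌉₊ ?_
  rw [mem_ball_zero_iff]
  linarith [Nat.le_ceil ‖x‖]

lemma locallyIntegrable_M (hd : 1 ≤ d) (hC0 : 0 ≤ C) (hC : CoreBoundAt d C) :
    LocallyIntegrable D.M := by
  intro x
  exact ⟨ball 0 (‖x‖ + 1), isOpen_ball.mem_nhds (by simp),
    integrable_toReal_of_lintegral_ne_top (measurable_maxFun _).aemeasurable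
      (D.setLIntegral_maxFun_ball hd hC0 hC (by positivity))⟩

lemma shift_M_of_U (hfinite : ∀ᵐ x, maxFun D.f x < ⊤) (O : Set (X d)) (v : X d)
    {b : ℝ≥0∞} (hb : ∀ n, ∫⁻ x in O, ‖D.U n (x + v) - D.U n x‖ₑ ≤ b) :
    ∫⁻ x in O, ‖D.M (x + v) - D.M x‖ₑ ≤ b := by
  have h1 : ∀ᵐ x, Tendsto (fun n => D.U n x) atTop (𝓝 (D.M x)) := by
    filter_upwards [hfinite, D.ae_iSup] with x hx hs
    have h := tendsto_atTop_iSup (f := fun n => ENNReal.ofReal (D.U n x))
      fun a b h => ENNReal.ofReal_le_ofReal (D.U_mono x h)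
    rw [hs] at h
    refine ((ENNReal.tendsto_toReal hx.ne).comp h).congr fun n => ?_
    simp [ENNReal.toReal_ofReal (D.U_nonneg n x)]
  have h2 := (measurePreserving_add_right volume v).quasiMeasurePreserving.ae h1
  calc ∫⁻ x in O, ‖D.M (x + v) - D.M x‖ₑ
      = ∫⁻ x in O, liminf (fun n => ‖D.U n (x + v) - D.U n x‖ₑ) atTop := by
        refine lintegral_congr_ae ?_
        filter_upwards [ae_restrict_of_ae h1, ae_restrict_of_ae h2] with x hx hx2
        exact ((continuous_enorm.tendsto _).comp (hx2.sub hx)).liminf_eq.symm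
    _ ≤ liminf (fun n => ∫⁻ x in O, ‖D.U n (x + v) - D.U n x‖ₑ) atTop :=
        lintegral_liminf_le' fun n => by
          have := D.measurable_U n
          exact (by fun_prop : Measurable fun x => ‖D.U n (x + v) - D.U n x‖ₑ).aemeasurable
    _ ≤ b := liminf_le_of_frequently_le' (Frequently.of_forall hb)

lemma shift_M (hfinite : ∀ᵐ x, maxFun D.f x < ⊤) (hC : CoreBoundAt d C) (v : X d) :
    ∫⁻ x, ‖D.M (x + v) - D.M x‖ₑ ≤ ENNReal.ofReal (C * ‖v‖) * (d * ∫⁻ x, D.W x) := by
  rw [← setLIntegral_univ]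
  refine D.shift_M_of_U hfinite univ v fun n => ?_
  rw [setLIntegral_univ]
  exact D.shift_U hC n v

/-- The difference quotient of the maximal function. -/
def quot (i : Fin d) (m : ℕ) (x : X d) : ℝ :=
  (rad m)⁻¹ * (D.M (x + rad m • EuclideanSpace.single i 1) - D.M x)

lemma norm_step (i : Fin d) (m : ℕ) : ‖rad m • EuclideanSpace.single i (1:ℝ)‖ = rad m := by
  rw [norm_smul, PiLp.norm_single, norm_one, mul_one, Real.norm_eq_abs, abs_of_pos (rad_pos m)]

lemma measurable_M : Measurable D.M := (measurable_maxFun _).ennreal_toReal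

lemma setLIntegral_quot_le (i : Fin d) (m : ℕ) (O : Set (X d)) {b : ℝ≥0∞}
    (hb : ∫⁻ x in O, ‖D.M (x + rad m • EuclideanSpace.single i 1) - D.M x‖ₑ ≤
      ENNReal.ofReal (C * rad m) * b) :
    ∫⁻ x in O, ‖D.quot i m x‖ₑ ≤ ENNReal.ofReal C * b := by
  have := D.measurable_M
  simp only [quot, enorm_mul]
  rw [lintegral_const_mul _ (by fun_prop)]
  refine le_trans (mul_le_mul_right hb _) (le_of_eq ?_)
  rw [← mul_assoc, Real.enorm_eq_ofReal (inv_nonneg.2 (rad_pos m).le),
    ← ENNReal.ofReal_mul (inv_nonneg.2 (rad_pos m).le)]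
  congr 2
  field_simp [(rad_pos m).ne']

end Data

/-- The total gradient mass. -/
def Data.G0 (D : Data d) : ℝ := ∑ i, ∫ x, |D.G i x|

lemma Data.G0_nonneg (D : Data d) : 0 ≤ D.G0 :=
  Finset.sum_nonneg fun _ _ => integral_nonneg fun _ => abs_nonneg _

lemma measurable_quot (D : Data d) (i : Fin d) (m : ℕ) : Measurable (D.quot i m) := by
  have := D.measurable_M
  unfold Data.quot
  fun_prop

lemma integrable_quot (D : Data d) {C : ℝ} (hC0 : 0 ≤ C) (hC : CoreBoundAt d C)
    (hfinite : ∀ᵐ x, maxFun D.f x < ⊤) (i : Fin d) (m : ℕ) :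
    Integrable (D.quot i m) ∧ ∫ x, |D.quot i m x| ≤ C * d * D.G0 := by
  have h : ∫⁻ x, ‖D.quot i m x‖ₑ ≤ ENNReal.ofReal (C * d * D.G0) := by
    have := D.setLIntegral_quot_le (C := C) i m univ (b := (d:ℝ≥0∞) * ∫⁻ x, D.W x) (by
      rw [setLIntegral_univ]
      have := D.shift_M hfinite hC (rad m • EuclideanSpace.single i 1)
      rwa [Data.norm_step] at this)
    rw [setLIntegral_univ] at this
    refine this.trans (le_of_eq ?_)
    rw [D.lintegral_W, mul_assoc C, ENNReal.ofReal_mul hC0, ENNReal.ofReal_mul (Nat.cast_nonneg d),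
      ENNReal.ofReal_natCast, Data.G0]
  have hi : Integrable (D.quot i m) :=
    ⟨(measurable_quot D i m).aestronglyMeasurable,
      hasFiniteIntegral_iff_enorm.2 (lt_of_le_of_lt h ENNReal.ofReal_lt_top)⟩
  refine ⟨hi, ?_⟩
  have e : ENNReal.ofReal (∫ x, |D.quot i m x|) ≤ ENNReal.ofReal (C * d * D.G0) := by
    refine le_trans (le_of_eq ?_) h
    rw [← ofReal_integral_norm_eq_lintegral_enorm hi]
    simp [Real.norm_eq_abs]
  exact (ENNReal.ofReal_le_ofReal_iff
    (mul_nonneg (mul_nonneg hC0 (Nat.cast_nonneg d)) D.G0_nonneg)).1 e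

/-- The difference quotients do not charge null compact sets. -/
lemma quot_null (D : Data d) {C : ℝ} (hC0 : 0 ≤ C) (hC : CoreBoundAt d C)
    (hfinite : ∀ᵐ x, maxFun D.f x < ⊤)
    (htail : ∀ ε : ℝ, 0 < ε → ∃ δ : ℝ, 0 < δ ∧ ∀ᶠ k in atTop, tail (D.reg k) δ ≤ ENNReal.ofReal ε)
    (i : Fin d) (K : Set (X d)) (hK : IsCompact K) (hK0 : volume K = 0) {ε : ℝ} (hε : 0 < ε) :
    ∃ O, IsOpen O ∧ K ⊆ O ∧
      ∀ᶠ m in atTop, ∫⁻ x in O, ‖D.quot i m x‖ₑ ≤ ENNReal.ofReal ε := by
  set ε' : ℝ := ε / ((C + 1) * (d + 2)) with hε'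
  have hε'0 : 0 < ε' := by positivity
  obtain ⟨δ, hδ, hδev⟩ := htail ε' hε'0
  have hfin : ∀ r, volume (thickening r K) ≠ ⊤ := fun r =>
    ((hK.isBounded.thickening).measure_lt_top).ne
  have hv0 : Tendsto (fun r => volume (thickening r K)) (𝓝[>] 0) (𝓝 0) := by
    simpa [hK0] using tendsto_measure_thickening_of_isClosed ⟨1, one_pos, hfin 1⟩ hK.isClosed
  have hW0 := tendsto_setLIntegral_zero (f := D.W) D.lintegral_W_ne_top
    (s := fun r : ℝ => thickening r K) hv0
  obtain ⟨η₀, hη₀W, hη₀⟩ := ((hW0.eventually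
    (ge_mem_nhds (ENNReal.ofReal_pos.2 hε'0))).and self_mem_nhdsWithin).exists
  have hη₀ : 0 < η₀ := hη₀
  obtain ⟨N, hN⟩ := exists_pow_lt_of_lt_one (div_pos (lt_min hδ (div_pos hη₀ three_pos))
    (by linarith : 0 < C + 1)) (by norm_num : (2:ℝ)⁻¹ < 1)
  set j : ℤ := -(N:ℤ) with hj
  have hjC : C * (2:ℝ) ^ j < min δ (η₀ / 3) := by
    have e : (2:ℝ) ^ j = (2⁻¹:ℝ) ^ N := by rw [hj, zpow_neg, zpow_natCast, inv_pow]
    rw [lt_div_iff₀ (by linarith)] at hN
    have : (0:ℝ) < 2⁻¹ ^ N := by positivity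
    rw [e]
    linarith
  set c : ℝ≥0∞ := ENNReal.ofReal (((2:ℝ) ^ j) ^ d)⁻¹ * (d * ∫⁻ x, D.W x) with hc
  have hc' : c ≠ ⊤ := ENNReal.mul_ne_top ENNReal.ofReal_ne_top
    (ENNReal.mul_ne_top (ENNReal.natCast_ne_top d) D.lintegral_W_ne_top)
  have hcv : Tendsto (fun r => c * volume (thickening r K)) (𝓝[>] 0) (𝓝 0) := by
    simpa using ENNReal.Tendsto.const_mul hv0 (Or.inr hc')
  obtain ⟨η, hηc, hη, hηle⟩ := ((hcv.eventually
    (ge_mem_nhds (ENNReal.ofReal_pos.2 hε'0))).and
      (Ioc_mem_nhdsGT (div_pos hη₀ three_pos))).exists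
  refine ⟨thickening η K, isOpen_thickening, self_subset_thickening hη K, ?_⟩
  filter_upwards [(tendsto_order.1 tendsto_rad).2 (η₀ / 3) (by linarith)] with m hm
  have htl : ∀ᶠ k in atTop, tail (D.reg k) (C * (2:ℝ) ^ j) ≤ ENNReal.ofReal ε' :=
    hδev.mono fun k hk =>
      le_trans (tail_mono _ (le_of_lt (lt_of_lt_of_le hjC (min_le_left _ _)))) hk
  have hb := D.shift_M_of_U hfinite (thickening η K) (rad m • EuclideanSpace.single i 1) fun n =>
    D.shift_U_local hC n isOpen_thickening.measurableSet (hfin η) _ j (ρ := η₀ - η)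
      (by rw [Data.norm_step]; linarith [min_le_right δ (η₀ / 3)]) htl
  rw [Data.norm_step] at hb
  refine le_trans (D.setLIntegral_quot_le i m _ hb) ?_
  calc ENNReal.ofReal C * (c * volume (thickening η K) +
        d * (∫⁻ x in thickening (η₀ - η) (thickening η K), D.W x) + ENNReal.ofReal ε')
      ≤ ENNReal.ofReal C * (ENNReal.ofReal ε' + d * ENNReal.ofReal ε' + ENNReal.ofReal ε') := by
        gcongr
        refine le_trans (lintegral_mono_set ?_) hη₀W
        exact (thickening_thickening_subset _ _ _).trans (thickening_mono (by linarith) _)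
    _ = ENNReal.ofReal (C * ((d + 2) * ε')) := by
        rw [ENNReal.ofReal_mul hC0, ENNReal.ofReal_mul (by positivity),
          ENNReal.ofReal_add (Nat.cast_nonneg d) (by norm_num), ENNReal.ofReal_natCast]
        norm_num
        ring
    _ ≤ ENNReal.ofReal ε := by
        refine ENNReal.ofReal_le_ofReal ?_
        have e : (C + 1) * ((d + 2) * ε') = ε := by rw [hε']; field_simp
        have : 0 ≤ ((d:ℝ) + 2) * ε' := by positivity
        linarith

/-- Integrating by parts with difference quotients. -/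
lemma tendsto_quot_integral (D : Data d) (hloc : LocallyIntegrable D.M) (i : Fin d)
    {φ : X d → ℝ} (hφ : ContDiff ℝ ∞ φ) (hφc : HasCompactSupport φ) :
    Tendsto (fun m => -∫ x, φ x * D.quot i m x) atTop
      (𝓝 (∫ x, D.M x * fderiv ℝ φ x (EuclideanSpace.single i 1))) := by
  set e : X d := EuclideanSpace.single i 1 with he
  have h1 : ContDiff ℝ 1 φ := hφ.of_le (by norm_num)
  have hφ' := h1.continuous
  obtain ⟨Lp, hLp⟩ := h1.lipschitzWith_of_hasCompactSupport hφc one_ne_zero
  obtain ⟨R, hR⟩ := hφc.isCompact.isBounded.subset_closedBall (0 : X d)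
  set S := closedBall (0 : X d) (R + 1) with hS
  have hrad : ∀ m, rad m ≤ 1 := fun m => by
    unfold rad; rw [div_le_one (by positivity)]; linarith [Nat.cast_nonneg (α := ℝ) m]
  have hMi : ∀ a, Integrable fun x => D.M x * φ (x - a) := by
    intro a
    exact hloc.integrable_smul_right_of_hasCompactSupport (hφ'.comp (continuous_id.sub continuous_const))
      (hφc.comp_homeomorph (Homeomorph.subRight a))
  have key : ∀ m, -∫ x, φ x * D.quot i m x =
      ∫ x, D.M x * ((rad m)⁻¹ * (φ x - φ (x - rad m • e))) := by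
    intro m
    set a := rad m • e with ha
    have hb : Integrable fun x => D.M (x + a) * φ x := by
      simpa using (hMi a).comp_add_right a
    have h0 : Integrable fun x => D.M x * φ x := by simpa using hMi 0
    calc -∫ x, φ x * D.quot i m x
        = -∫ x, (rad m)⁻¹ * (D.M (x + a) * φ x - D.M x * φ x) := by
          congr 1
          refine integral_congr_ae (Eventually.of_forall fun x => ?_)
          simp only [Data.quot, ← he, ← ha]
          ring
      _ = (rad m)⁻¹ * ((∫ x, D.M x * φ x) - ∫ x, D.M x * φ (x - a)) := by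
          rw [integral_const_mul, integral_sub hb h0,
            ← integral_add_right_eq_self (fun x => D.M x * φ (x - a)) a]
          simp
          ring
      _ = ∫ x, D.M x * ((rad m)⁻¹ * (φ x - φ (x - a))) := by
          rw [← integral_sub h0 (hMi a), ← integral_const_mul]
          refine integral_congr_ae (Eventually.of_forall fun x => ?_)
          ring
  simp only [key]
  refine tendsto_integral_of_dominated_convergence
    (fun x => S.indicator (fun x => |D.M x| * (Lp:ℝ)) x) (fun m => ?_) ?_ (fun m => ?_) ?_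
  · have := D.measurable_M
    exact Measurable.aestronglyMeasurable (by fun_prop)
  · have hi : IntegrableOn (fun x => |D.M x| * (Lp:ℝ)) S :=
      (hloc.integrableOn_isCompact (isCompact_closedBall _ _)).abs.mul_const _
    exact hi.integrable_indicator measurableSet_closedBall
  · refine Eventually.of_forall fun x => ?_
    by_cases hx : x ∈ S
    · rw [indicator_of_mem hx, Real.norm_eq_abs, abs_mul, abs_mul,
        abs_of_pos (inv_pos.2 (rad_pos m))]
      refine mul_le_mul_of_nonneg_left ?_ (abs_nonneg _)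
      rw [inv_mul_le_iff₀ (rad_pos m)]
      have := hLp.dist_le_mul x (x - rad m • e)
      rw [Real.dist_eq, dist_eq_norm, sub_sub_cancel, he, Data.norm_step] at this
      rw [mul_comm (rad m)]
      exact this
    · rw [indicator_of_notMem hx]
      have hx' : R + 1 < ‖x‖ := by simpa [hS, mem_closedBall_zero_iff, not_le] using hx
      have h0 : φ x = 0 := image_eq_zero_of_notMem_tsupport fun h => by
        have := hR h; rw [mem_closedBall_zero_iff] at this; linarith
      have h0' : φ (x - rad m • e) = 0 := image_eq_zero_of_notMem_tsupport fun h => by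
        have := hR h
        rw [mem_closedBall_zero_iff] at this
        have h2 := norm_sub_norm_le x (rad m • e)
        rw [he, Data.norm_step] at h2
        linarith [hrad m]
      simp [h0, h0']
  · refine Eventually.of_forall fun x => (Tendsto.const_mul _ ?_)
    have hd := ((h1.differentiable one_ne_zero).differentiableAt (x := x)).hasFDerivAt
    have := (hd.hasLineDerivAt e).tendsto_slope_zero.comp (tendsto_nhdsWithin_iff.2
      ⟨by simpa using tendsto_rad.neg, Eventually.of_forall fun m =>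
        (neg_ne_zero.2 (rad_pos m).ne' : -rad m ∈ ({0}ᶜ : Set ℝ))⟩)
    refine this.congr fun m => ?_
    simp only [Function.comp_apply, neg_smul, smul_eq_mul, inv_neg, ← sub_eq_add_neg]
    ring

/-- **Passage.** The core bound gives endpoint Sobolev regularity of the maximal operator. -/
theorem passage : Passage := by
  intro hT hCore d hd
  obtain ⟨C, hC0, hC⟩ := hCore d hd
  have hC : CoreBoundAt d C := hC
  refine ⟨2 * d * (C * d), fun f G hf hG hw => ?_⟩
  set D : Data d :=
    { f := hf.1.mk f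
      G := fun i => (hG i).1.mk (G i)
      hf := hf.congr hf.1.ae_eq_mk
      hfm := hf.1.stronglyMeasurable_mk.measurable
      hG := fun i => (hG i).congr (hG i).1.ae_eq_mk
      hGm := fun i => (hG i).1.stronglyMeasurable_mk.measurable
      hweak := fun i φ h1 h2 => by
        have ea : ∫ x, hf.1.mk f x * fderiv ℝ φ x (EuclideanSpace.single i 1) =
            ∫ x, f x * fderiv ℝ φ x (EuclideanSpace.single i 1) := by
          refine integral_congr_ae ?_
          filter_upwards [hf.1.ae_eq_mk] with x hx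
          rw [hx]
        have eb : ∫ x, (hG i).1.mk (G i) x * φ x = ∫ x, G i x * φ x := by
          refine integral_congr_ae ?_
          filter_upwards [(hG i).1.ae_eq_mk] with x hx
          rw [hx]
        rw [ea, eb, hw i φ h1 h2] } with hD
  have hmax : maxFun f = maxFun D.f := by
    funext x
    refine iSup_congr fun c => iSup_congr fun r => iSup_congr fun _ => ?_
    congr 1
    refine lintegral_congr_ae (ae_restrict_of_ae ?_)
    filter_upwards [hf.1.ae_eq_mk] with y hy
    simp only [hD]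
    rw [← hy]
  have hG0 : D.G0 = ∑ i, ∫ x, |G i x| := by
    refine Finset.sum_congr rfl fun i _ => integral_congr_ae ?_
    filter_upwards [(hG i).1.ae_eq_mk] with x hx
    simp only [hD]
    rw [← hx]
  rw [hmax, ← hG0]
  have hfinite := D.ae_finite hd hC0 hC
  have hloc := D.locallyIntegrable_M hd hC0 hC
  have htail := hT d D.h D.G0 D.reg D.integrable_h
    (fun v => by
      rw [mul_comm, ENNReal.ofReal_mul (norm_nonneg v), Data.G0, ← D.lintegral_W]
      exact D.lintegral_shift_h v)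
    D.coreFun_reg D.reg_shift D.tendsto_reg
  set 𝒰 : Ultrafilter ℕ := Ultrafilter.of atTop with hU
  have h𝒰 : (↑𝒰 : Filter ℕ) ≤ atTop := Ultrafilter.of_le _
  have hA0 : 0 ≤ C * d * D.G0 := mul_nonneg (mul_nonneg hC0 (Nat.cast_nonneg d)) D.G0_nonneg
  have hdens : ∀ (i : Fin d) (σ : ℝ), |σ| = 1 → ∃ w : X d → ℝ, Integrable w ∧ (∀ x, 0 ≤ w x) ∧
      ∫ x, w x ≤ C * d * D.G0 ∧ ∀ ψ : C_c(X d, ℝ), Tendsto
        (fun m => ∫ x, ψ x * max (σ * D.quot i m x) 0) (↑𝒰 : Filter ℕ) (𝓝 (∫ x, ψ x * w x)) := by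
    intro i σ hσ
    have hle : ∀ m x, max (σ * D.quot i m x) 0 ≤ |D.quot i m x| := fun m x =>
      max_le (le_trans (le_abs_self _) (by rw [abs_mul, hσ, one_mul])) (abs_nonneg _)
    have hi : ∀ m, Integrable fun x => max (σ * D.quot i m x) 0 := fun m => by
      have := measurable_quot D i m
      refine (integrable_quot D hC0 hC hfinite i m).1.abs.mono'
        (Measurable.aestronglyMeasurable (by fun_prop)) (Eventually.of_forall fun x => ?_)
      rw [Real.norm_eq_abs, abs_of_nonneg (le_max_right _ _)]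
      exact hle m x
    refine exists_density _ (fun m x => le_max_right _ _) hi hA0 (fun m => ?_)
      (fun K hK hK0 ε hε => ?_) 𝒰 h𝒰
    · exact le_trans (integral_mono (hi m) (integrable_quot D hC0 hC hfinite i m).1.abs (hle m))
        (integrable_quot D hC0 hC hfinite i m).2
    · obtain ⟨O, hO, hKO, hev⟩ := quot_null D hC0 hC hfinite htail i K hK hK0 hε
      refine ⟨O, hO, hKO, hev.mono fun m hm => le_trans (lintegral_mono fun x => ?_) hm⟩
      rw [← ofReal_norm, Real.norm_eq_abs]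
      exact ENNReal.ofReal_le_ofReal (hle m x)
  choose wp hwpi hwp0 hwpA hwp using fun i => hdens i 1 abs_one
  choose wn hwni hwn0 hwnA hwn using fun i => hdens i (-1) (by norm_num)
  refine ⟨hfinite, hloc, fun i x => wp i x - wn i x, fun i => (hwpi i).sub (hwni i),
    fun i φ hφ hφc => ?_, ?_⟩
  · have hlim := (tendsto_quot_integral D hloc i hφ hφc).mono_left h𝒰
    set ψ : C_c(X d, ℝ) := ⟨⟨φ, hφ.continuous⟩, hφc⟩ with hψ
    obtain ⟨B, hB⟩ := hφc.exists_bound_of_continuous hφ.continuous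
    have hbd : ∀ {u : X d → ℝ}, Integrable u → Integrable fun x => φ x * u x := fun hu =>
      hu.bdd_mul hφ.continuous.aestronglyMeasurable (Eventually.of_forall hB)
    have hq : ∀ (σ : ℝ) m, Integrable fun x => max (σ * D.quot i m x) 0 := fun σ m =>
      ((integrable_quot D hC0 hC hfinite i m).1.const_mul σ).pos_part
    have h2 := (((hwp i ψ).sub (hwn i ψ)).neg).congr (f₂ := fun m => -∫ x, φ x * D.quot i m x)
      fun m => by
        simp only [hψ, CompactlySupportedContinuousMap.coe_mk, ContinuousMap.coe_mk]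
        rw [← integral_sub (hbd (hq 1 m)) (hbd (hq (-1) m))]
        congr 1
        refine integral_congr_ae (Eventually.of_forall fun x => ?_)
        simp only
        rcases le_total 0 (D.quot i m x) with h | h
        · rw [max_eq_left (by linarith), max_eq_right (by linarith)]; ring
        · rw [max_eq_right (by linarith), max_eq_left (by linarith)]; ring
    have := tendsto_nhds_unique hlim h2
    change ∫ x, D.M x * fderiv ℝ φ x (EuclideanSpace.single i 1) = _
    rw [this]
    simp only [hψ, CompactlySupportedContinuousMap.coe_mk, ContinuousMap.coe_mk]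
    rw [← integral_sub (hbd (hwpi i)) (hbd (hwni i))]
    congr 1
    exact integral_congr_ae (Eventually.of_forall fun x => by simp only; ring)
  · calc ∑ i, ∫ x, |wp i x - wn i x| ≤ ∑ _i : Fin d, 2 * (C * d * D.G0) := by
          refine Finset.sum_le_sum fun i _ => ?_
          calc ∫ x, |wp i x - wn i x| ≤ ∫ x, (wp i x + wn i x) :=
                integral_mono ((hwpi i).sub (hwni i)).abs ((hwpi i).add (hwni i)) fun x => by
                  rw [abs_le]; constructor <;> linarith [hwp0 i x, hwn0 i x]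
            _ = (∫ x, wp i x) + ∫ x, wn i x := integral_add (hwpi i) (hwni i)
            _ ≤ 2 * (C * d * D.G0) := by linarith [hwpA i, hwnA i]
      _ = 2 * d * (C * d) * D.G0 := by simp; ring

end Vale.Agent.P137
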