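import Vale.Agent.P137.Defs

/-!
P137, module (b): the triple functionals are bounded by the gradient, and their small scales
vanish along regularisations.

For `V k w = 2 ^ (-k) ∫ |f (x + 2 ^ k w) - f x|` the triangle inequality gives
`defect + V k ≤ V (k - m)`, which telescopes over the scales.
-/

open MeasureTheory Metric Set Filter
open scoped ENNReal Topology ContDiff

noncomputable section

namespace Vale.Agent.P137

variable {d : ℕ}

/-! ### Translations -/

theorem lintegral_translate_le {f : X d → ℝ} (hf : ContDiff ℝ 1 f) (v : X d) :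
    ∫⁻ x, ‖f (x + v) - f x‖ₑ ≤ ‖v‖ₑ * ∫⁻ x, ‖fderiv ℝ f x‖ₑ := by
  have hDc : Continuous (fderiv ℝ f) := hf.continuous_fderiv one_ne_zero
  have key : ∀ x, ‖f (x + v) - f x‖ₑ ≤
      ∫⁻ t in Icc (0:ℝ) 1, ‖fderiv ℝ f (x + t • v)‖ₑ * ‖v‖ₑ := by
    intro x
    have hd : ∀ t : ℝ, HasDerivAt (fun t : ℝ => f (x + t • v)) (fderiv ℝ f (x + t • v) v) t := by
      intro t
      have h1 : HasDerivAt (fun t : ℝ => x + t • v) v t := by
        simpa using ((hasDerivAt_id t).smul_const v).const_add x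
      exact ((hf.differentiable one_ne_zero _).hasFDerivAt).comp_hasDerivAt t h1
    have hc : Continuous fun t : ℝ => fderiv ℝ f (x + t • v) v :=
      (hDc.comp (by fun_prop)).clm_apply continuous_const
    have h := intervalIntegral.integral_eq_sub_of_hasDerivAt (a := (0:ℝ)) (b := 1)
      (fun t _ => hd t) (hc.intervalIntegrable 0 1)
    simp only [one_smul, zero_smul, add_zero] at h
    rw [← h, intervalIntegral.integral_of_le zero_le_one]
    calc ‖∫ t in Ioc (0:ℝ) 1, fderiv ℝ f (x + t • v) v‖ₑ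
        ≤ ∫⁻ t in Ioc (0:ℝ) 1, ‖fderiv ℝ f (x + t • v) v‖ₑ := enorm_integral_le_lintegral_enorm _
      _ ≤ ∫⁻ t in Icc (0:ℝ) 1, ‖fderiv ℝ f (x + t • v) v‖ₑ :=
          lintegral_mono_set Ioc_subset_Icc_self
      _ ≤ _ := lintegral_mono fun t => ContinuousLinearMap.le_opENorm _ _
  have hm : Measurable (Function.uncurry fun (x : X d) (t : ℝ) =>
      ‖fderiv ℝ f (x + t • v)‖ₑ * ‖v‖ₑ) :=
    ((hDc.comp (by fun_prop : Continuous fun p : X d × ℝ => p.1 + p.2 • v)).measurable.enorm).mul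
      measurable_const
  calc ∫⁻ x, ‖f (x + v) - f x‖ₑ
      ≤ ∫⁻ x, ∫⁻ t in Icc (0:ℝ) 1, ‖fderiv ℝ f (x + t • v)‖ₑ * ‖v‖ₑ := lintegral_mono key
    _ = ∫⁻ t in Icc (0:ℝ) 1, ∫⁻ x, ‖fderiv ℝ f (x + t • v)‖ₑ * ‖v‖ₑ :=
        lintegral_lintegral_swap hm.aemeasurable
    _ = ∫⁻ _t in Icc (0:ℝ) 1, (∫⁻ x, ‖fderiv ℝ f x‖ₑ) * ‖v‖ₑ := by
        congr 1
        ext t
        rw [lintegral_mul_const' _ _ enorm_ne_top,
          lintegral_add_right_eq_self (μ := (volume : Measure (X d)))
            (fun x => ‖fderiv ℝ f x‖ₑ) (t • v)]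
    _ = _ := by
        rw [setLIntegral_const, Real.volume_Icc]
        simp [mul_comm]

theorem N3_nonneg (a b c : ℝ) : 0 ≤ N3 a b c := by
  have := abs_sub_le a b c
  unfold N3
  linarith

theorem N3_measurable {α : Type*} [MeasurableSpace α] {a b c : α → ℝ}
    (ha : Measurable a) (hb : Measurable b) (hc : Measurable c) :
    Measurable fun x => N3 (a x) (b x) (c x) :=
  ((((continuous_abs.measurable.comp (ha.sub hb))).add
    (continuous_abs.measurable.comp (hb.sub hc))).sub
      (continuous_abs.measurable.comp (ha.sub hc))).div_const 2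

/-! ### Oscillations and defects -/

/-- The scaled translation oscillation. -/
def osc (f : X d → ℝ) (k : ℤ) (w : X d) : ℝ≥0∞ :=
  ENNReal.ofReal ((2:ℝ) ^ k)⁻¹ * ∫⁻ x, ‖f (x + (2:ℝ) ^ k • w) - f x‖ₑ

/-- The translation defect between the scales `k - m` and `k`. -/
def defect (m : ℕ) (f : X d → ℝ) (k : ℤ) (w : X d) : ℝ≥0∞ :=
  2 * (ENNReal.ofReal ((2:ℝ) ^ k)⁻¹ *
    ∫⁻ y, ENNReal.ofReal
      (N3 (f y) (f (y + (2:ℝ) ^ (k - (m:ℤ)) • w)) (f (y + (2:ℝ) ^ k • w))))

theorem measurable_osc {f : X d → ℝ} (hf : Measurable f) (k : ℤ) : Measurable (osc f k) := by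
  have h : Measurable (Function.uncurry fun (w x : X d) =>
      ‖f (x + (2:ℝ) ^ k • w) - f x‖ₑ) :=
    ((hf.comp (by fun_prop)).sub (hf.comp measurable_snd)).enorm
  exact h.lintegral_prod_right'.const_mul _

theorem measurable_defect {f : X d → ℝ} (hf : Measurable f) (m : ℕ) (k : ℤ) :
    Measurable (defect m f k) := by
  have h : Measurable (Function.uncurry fun (w y : X d) => ENNReal.ofReal
      (N3 (f y) (f (y + (2:ℝ) ^ (k - (m:ℤ)) • w)) (f (y + (2:ℝ) ^ k • w)))) :=
    (N3_measurable (hf.comp measurable_snd) (hf.comp (by fun_prop))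
      (hf.comp (by fun_prop))).ennreal_ofReal
  exact (h.lintegral_prod_right'.const_mul _).const_mul _

theorem first_steps_le (a : ℕ → ℝ) {n : ℕ} (hn : 1 ≤ n) :
    |a 0 - a 1| + |a 1 - a n| ≤ ∑ i ∈ Finset.range n, |a (i + 1) - a i| := by
  induction n, hn using Nat.le_induction with
  | base => simp [abs_sub_comm]
  | succ n _ ih =>
    rw [Finset.sum_range_succ]
    have := abs_sub_le (a 1) (a n) (a (n + 1))
    rw [abs_sub_comm (a (n+1)) (a n)]
    linarith

/-- One telescoping step. -/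
theorem defect_add_osc_le {f : X d → ℝ} (hf : Measurable f) (m : ℕ) (k : ℤ) (w : X d) :
    defect m f k w + osc f k w ≤ osc f (k - m) w := by
  set h : X d := (2:ℝ) ^ (k - (m:ℤ)) • w with hh
  have hk : (2:ℝ) ^ k • w = ((2 ^ m : ℕ) : ℝ) • h := by
    rw [hh, smul_smul]
    congr 1
    push_cast
    rw [← zpow_natCast (2:ℝ) m, ← zpow_add₀ (two_ne_zero' ℝ)]
    congr 1
    ring
  set g : ℕ → X d → ℝ := fun i y => f (y + (i:ℝ) • h) with hg
  have hgm : ∀ i, Measurable (g i) := fun i => hf.comp (measurable_add_const _)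
  have pt : ∀ y, 2 * ENNReal.ofReal (N3 (f y) (f (y + h)) (f (y + (2:ℝ) ^ k • w))) +
      ‖f (y + (2:ℝ) ^ k • w) - f y‖ₑ ≤
      ∑ i ∈ Finset.range (2 ^ m), ‖g (i + 1) y - g i y‖ₑ := by
    intro y
    have h1 := first_steps_le (fun i => g i y) (n := 2 ^ m) Nat.one_le_two_pow
    simp only [hg, Nat.cast_zero, zero_smul, add_zero, Nat.cast_one, one_smul] at h1
    rw [← hk] at h1
    simp only [Real.enorm_eq_ofReal_abs, hg]
    have e2 : ∀ x : ℝ, 2 * ENNReal.ofReal x = ENNReal.ofReal (2 * x) := fun x => by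
      rw [ENNReal.ofReal_mul zero_le_two, ENNReal.ofReal_ofNat]
    rw [e2,
      ← ENNReal.ofReal_add (mul_nonneg zero_le_two (N3_nonneg _ _ _)) (abs_nonneg _),
      ← ENNReal.ofReal_sum_of_nonneg fun i _ => abs_nonneg _]
    apply ENNReal.ofReal_le_ofReal
    unfold N3
    rw [abs_sub_comm (f (y + (2:ℝ) ^ k • w)) (f y)]
    linarith
  have hstep : ∀ i, ∫⁻ y, ‖g (i + 1) y - g i y‖ₑ = ∫⁻ y, ‖f (y + h) - f y‖ₑ := by
    intro i
    refine Eq.trans ?_ (lintegral_add_right_eq_self (μ := (volume : Measure (X d)))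
      (fun y => ‖f (y + h) - f y‖ₑ) ((i:ℝ) • h))
    congr 1
    ext y
    simp only [hg, Nat.cast_add, Nat.cast_one, add_smul, one_smul, add_assoc]
  have hI := lintegral_mono (μ := (volume : Measure (X d))) pt
  have mN : Measurable fun y => ENNReal.ofReal
      (N3 (f y) (f (y + h)) (f (y + (2:ℝ) ^ k • w))) :=
    (N3_measurable hf (hf.comp (measurable_add_const _))
      (hf.comp (measurable_add_const _))).ennreal_ofReal
  rw [lintegral_add_left (mN.const_mul _), lintegral_const_mul _ mN,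
    lintegral_finsetSum (Finset.range (2 ^ m)) (fun i _ => (show Measurable fun y => ‖g (i + 1) y - g i y‖ₑ from
      ((hgm (i + 1)).sub (hgm i)).enorm)),
    Finset.sum_congr rfl (fun i _ => hstep i), Finset.sum_const, Finset.card_range,
    nsmul_eq_mul] at hI
  unfold defect osc
  rw [← hh]
  calc _ = ENNReal.ofReal ((2:ℝ) ^ k)⁻¹ *
        (2 * (∫⁻ y, ENNReal.ofReal (N3 (f y) (f (y + h)) (f (y + (2:ℝ) ^ k • w)))) +
          ∫⁻ x, ‖f (x + (2:ℝ) ^ k • w) - f x‖ₑ) := by ring
    _ ≤ _ := mul_le_mul_right hI _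
    _ = _ := by
        rw [← mul_assoc, ← ENNReal.ofReal_natCast, ← ENNReal.ofReal_mul (by positivity)]
        congr 2
        push_cast
        rw [zpow_sub₀ (two_ne_zero' ℝ), zpow_natCast]
        field_simp

theorem osc_pred {f : X d → ℝ} (hf : Measurable f) (k : ℤ) (w : X d) :
    osc f k w ≤ osc f (k - 1) w :=
  le_add_self.trans (by simpa using defect_add_osc_le hf 1 k w)

theorem osc_antitone {f : X d → ℝ} (hf : Measurable f) (w : X d) :
    Antitone fun k : ℤ => osc f k w := by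
  apply antitone_int_of_succ_le
  intro k
  simpa using osc_pred hf (k + 1) w

/-- The telescoped inequality. -/
theorem telescope {f : X d → ℝ} (hf : Measurable f) (m : ℕ) (w : X d) (a b : ℤ) (hab : a ≤ b) :
    ∑ k ∈ Finset.Ico a b, defect (m + 1) f k w +
      ∑ i ∈ Finset.range (m + 1), osc f (b - 1 - i) w ≤
      ∑ i ∈ Finset.range (m + 1), osc f (a - 1 - i) w := by
  induction b, hab using Int.leInduction with
  | base => simp
  | succ b hab ih =>
    refine le_trans ?_ ih
    have hins : Finset.Ico a (b + 1) = insert b (Finset.Ico a b) := by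
      ext x
      simp only [Finset.mem_insert, Finset.mem_Ico]
      omega
    rw [hins, Finset.sum_insert (by simp), Finset.sum_range_succ' _ m, Finset.sum_range_succ _ m]
    have hs : ∀ i ∈ Finset.range m, osc f (b + 1 - 1 - ((i + 1 : ℕ) : ℤ)) w = osc f (b - 1 - i) w := by
      intro i _
      congr 1
      push_cast
      ring
    rw [Finset.sum_congr rfl hs]
    have h0 := defect_add_osc_le hf (m + 1) b w
    rw [show b - ((m + 1 : ℕ) : ℤ) = b - 1 - m by push_cast; ring] at h0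
    simp only [Nat.cast_zero, sub_zero, add_sub_cancel_right]
    calc _ = ∑ k ∈ Finset.Ico a b, defect (m + 1) f k w +
          (∑ i ∈ Finset.range m, osc f (b - 1 - i) w + (defect (m + 1) f b w + osc f b w)) := by
            ac_rfl
      _ ≤ _ := by gcongr

theorem finset_subset_Ico (s : Finset ℤ) (j : ℤ) :
    ∃ a ≤ j, ∀ k ∈ s, k < j → k ∈ Finset.Ico a j := by
  refine ⟨min j (-(s.sup Int.natAbs : ℕ)), min_le_left _ _, fun k hk hkj => ?_⟩
  have := Finset.le_sup (f := Int.natAbs) hk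
  rw [Finset.mem_Ico]
  exact ⟨(min_le_right _ _).trans (by omega), hkj⟩

/-- All scales below `j`. -/
theorem tsum_defect_add_le {f : X d → ℝ} (hf : Measurable f) (m : ℕ) (w : X d) (j : ℤ)
    (S : ℝ≥0∞) (hS : ∀ k, osc f k w ≤ S) :
    (∑' k : ℤ, if k < j then defect (m + 1) f k w else 0) +
      ∑ i ∈ Finset.range (m + 1), osc f (j - 1 - i) w ≤ (m + 1 : ℕ) * S := by
  rw [ENNReal.tsum_eq_iSup_sum, ENNReal.iSup_add]
  refine iSup_le fun s => ?_
  obtain ⟨a, ha, hsub⟩ := finset_subset_Ico s j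
  rw [← Finset.sum_filter]
  calc _ ≤ ∑ k ∈ Finset.Ico a j, defect (m + 1) f k w +
        ∑ i ∈ Finset.range (m + 1), osc f (j - 1 - i) w := by
        gcongr
        intro k hk
        rw [Finset.mem_filter] at hk
        exact hsub k hk.1 hk.2
    _ ≤ ∑ i ∈ Finset.range (m + 1), osc f (a - 1 - i) w := telescope hf m w a j ha
    _ ≤ ∑ _i ∈ Finset.range (m + 1), S := Finset.sum_le_sum fun i _ => hS _
    _ = _ := by simp

/-- All scales. -/
theorem tsum_defect_le {f : X d → ℝ} (hf : Measurable f) (m : ℕ) (w : X d)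
    (S : ℝ≥0∞) (hS : ∀ k, osc f k w ≤ S) :
    ∑' k : ℤ, defect (m + 1) f k w ≤ (m + 1 : ℕ) * S := by
  rw [ENNReal.tsum_eq_iSup_sum]
  refine iSup_le fun s => ?_
  refine le_trans ?_
    (le_self_add.trans (tsum_defect_add_le hf m w ((s.sup Int.natAbs : ℕ) + 1) S hS))
  refine le_trans (le_of_eq (Finset.sum_congr rfl fun k hk => ?_)) (ENNReal.sum_le_tsum s)
  have := Finset.le_sup (f := Int.natAbs) hk
  exact (if_pos (by omega)).symm

theorem osc_le_grad {f : X d → ℝ} (hf : ContDiff ℝ 1 f) (k : ℤ) (w : X d) :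
    osc f k w ≤ ‖w‖ₑ * ∫⁻ x, ‖fderiv ℝ f x‖ₑ := by
  refine (mul_le_mul_right (lintegral_translate_le hf _) _).trans (le_of_eq ?_)
  have h2 : (0:ℝ) < (2:ℝ) ^ k := by positivity
  rw [enorm_smul, Real.enorm_eq_ofReal h2.le, ← mul_assoc, ← mul_assoc,
    ← ENNReal.ofReal_mul (by positivity), inv_mul_cancel₀ h2.ne', ENNReal.ofReal_one, one_mul]

/-! ### The triple functional as an integral of defects -/

theorem setLIntegral_ball_scale (φ : X d → ℝ≥0∞) (y : X d) {s : ℝ} (hs : 0 < s) (K : ℝ) :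
    ∫⁻ p in ball y (K * s), φ p =
      ENNReal.ofReal (s ^ d) * ∫⁻ w in ball (0 : X d) K, φ (y + s • w) := by
  have h1 : ∀ F : X d → ℝ≥0∞, ∫⁻ w, F (y + s • w) = ENNReal.ofReal (s ^ d)⁻¹ * ∫⁻ p, F p := by
    intro F
    have hemb : MeasurableEmbedding fun w : X d => s • w :=
      (Homeomorph.smulOfNeZero s hs.ne').measurableEmbedding
    have h := hemb.lintegral_map (μ := (volume : Measure (X d))) (fun z => F (y + z))
    rw [Measure.map_addHaar_smul volume hs.ne', lintegral_smul_measure,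
      finrank_euclideanSpace_fin, abs_of_nonneg (by positivity), smul_eq_mul,
      lintegral_add_left_eq_self (μ := (volume : Measure (X d))) F y] at h
    exact h.symm
  have h2 := h1 ((ball y (K * s)).indicator φ)
  rw [lintegral_indicator measurableSet_ball] at h2
  have h3 : (fun w => (ball y (K * s)).indicator φ (y + s • w)) =
      (ball (0 : X d) K).indicator fun w => φ (y + s • w) := by
    ext w
    have : y + s • w ∈ ball y (K * s) ↔ w ∈ ball (0 : X d) K := by
      rw [mem_ball, mem_ball, dist_eq_norm, dist_zero_right, add_sub_cancel_left, norm_smul,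
        Real.norm_eq_abs, abs_of_pos hs, mul_comm K s, mul_lt_mul_iff_right₀ hs]
    by_cases hw : w ∈ ball (0 : X d) K
    · rw [indicator_of_mem hw, indicator_of_mem (this.mpr hw)]
    · rw [indicator_of_notMem hw, indicator_of_notMem (fun h => hw (this.mp h))]
  rw [h3, lintegral_indicator measurableSet_ball] at h2
  rw [h2, ← mul_assoc, ← ENNReal.ofReal_mul (by positivity), mul_inv_cancel₀ (by positivity),
    ENNReal.ofReal_one, one_mul]

theorem trip_le {f : X d → ℝ} (hf : Measurable f) (m : ℕ) (k : ℤ) :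
    trip m f k ≤ ∫⁻ w in ball (0 : X d) Kc, defect m f k w := by
  have h2 : (0:ℝ) < (2:ℝ) ^ k := by positivity
  have hn : ∀ y w : X d, node m y (y + (2:ℝ) ^ k • w) = y + (2:ℝ) ^ (k - (m:ℤ)) • w := by
    intro y w
    rw [node, add_sub_cancel_left, smul_smul, zpow_sub₀ (two_ne_zero' ℝ), zpow_natCast,
      div_eq_inv_mul]
  unfold trip
  simp only [setLIntegral_ball_scale _ _ h2, hn]
  have hm : Measurable (Function.uncurry fun (y w : X d) => ENNReal.ofReal
      (N3 (f y) (f (y + (2:ℝ) ^ (k - (m:ℤ)) • w)) (f (y + (2:ℝ) ^ k • w)))) :=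
    (N3_measurable (hf.comp measurable_fst) (hf.comp (by fun_prop))
      (hf.comp (by fun_prop))).ennreal_ofReal
  have hmw : Measurable fun w : X d => ∫⁻ y, ENNReal.ofReal
      (N3 (f y) (f (y + (2:ℝ) ^ (k - (m:ℤ)) • w)) (f (y + (2:ℝ) ^ k • w))) :=
    hm.lintegral_prod_left'
  rw [lintegral_const_mul' _ _ ENNReal.ofReal_ne_top, lintegral_lintegral_swap hm.aemeasurable,
    ← mul_assoc, ← ENNReal.ofReal_mul (by positivity),
    show ((((2:ℝ) ^ k) ^ (d + 1)))⁻¹ * ((2:ℝ) ^ k) ^ d = ((2:ℝ) ^ k)⁻¹ by field_simp; ring,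
    ← lintegral_const_mul _ hmw]
  exact lintegral_mono fun w => le_mul_of_one_le_left zero_le one_le_two

theorem tsum_trip_le {f : X d → ℝ} (hf : ContDiff ℝ 1 f) (m : ℕ) :
    ∑' k : ℤ, trip (m + 1) f k ≤
      (m + 1 : ℕ) * ENNReal.ofReal Kc * volume (ball (0 : X d) Kc) *
        ∫⁻ x, ‖fderiv ℝ f x‖ₑ := by
  have hfm := hf.continuous.measurable
  calc ∑' k : ℤ, trip (m + 1) f k
      ≤ ∑' k : ℤ, ∫⁻ w in ball (0 : X d) Kc, defect (m + 1) f k w :=
        ENNReal.tsum_le_tsum fun k => trip_le hfm _ k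
    _ = ∫⁻ w in ball (0 : X d) Kc, ∑' k : ℤ, defect (m + 1) f k w :=
        (lintegral_tsum fun k => (measurable_defect hfm _ k).aemeasurable).symm
    _ ≤ ∫⁻ _w in ball (0 : X d) Kc,
          (m + 1 : ℕ) * (ENNReal.ofReal Kc * ∫⁻ x, ‖fderiv ℝ f x‖ₑ) := by
        refine setLIntegral_mono measurable_const fun w hw => ?_
        refine tsum_defect_le hfm m w _ fun k => (osc_le_grad hf k w).trans ?_
        gcongr
        rw [← ofReal_norm]
        exact ENNReal.ofReal_le_ofReal (le_of_lt (by simpa using hw))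
    _ = _ := by rw [setLIntegral_const]; ring

/-- The triple functionals of all scales are controlled by the gradient. -/
theorem tripleBound : TripleBound := by
  intro d
  refine ⟨((mShort : ℝ) + mLong) * Kc * (volume (ball (0 : X d) Kc)).toReal, fun f hf => ?_⟩
  have hb : volume (ball (0 : X d) Kc) ≠ ⊤ := measure_ball_lt_top.ne
  rw [ENNReal.tsum_add]
  refine (add_le_add (tsum_trip_le hf.1 15) (tsum_trip_le hf.1 3)).trans (le_of_eq ?_)
  have hK : (0:ℝ) ≤ Kc := by norm_num [Kc]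
  rw [ENNReal.ofReal_mul (by positivity), ENNReal.ofReal_mul (by positivity),
    ENNReal.ofReal_toReal hb, ENNReal.ofReal_add (by positivity) (by positivity),
    ENNReal.ofReal_natCast, ENNReal.ofReal_natCast]
  simp only [mShort, mLong]
  push_cast
  ring

/-! ### Small scales along regularisations -/

theorem osc_le_of_translate_le {f g : X d → ℝ}
    (h : ∀ v, ∫⁻ x, ‖f (x + v) - f x‖ₑ ≤ ∫⁻ x, ‖g (x + v) - g x‖ₑ) (k : ℤ) (w : X d) :
    osc f k w ≤ osc g k w :=
  mul_le_mul_right (h _) _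

theorem osc_le_add_dist {f g : X d → ℝ} (hf : Measurable f) (hg : Measurable g) (k : ℤ) (w : X d) :
    osc g k w ≤ osc f k w + ENNReal.ofReal ((2:ℝ) ^ k)⁻¹ * (2 * ∫⁻ x, ‖f x - g x‖ₑ) := by
  unfold osc
  rw [← mul_add]
  refine mul_le_mul_right ?_ _
  set v := (2:ℝ) ^ k • w
  calc ∫⁻ x, ‖g (x + v) - g x‖ₑ
      ≤ ∫⁻ x, (‖f (x + v) - f x‖ₑ + (‖f (x + v) - g (x + v)‖ₑ + ‖f x - g x‖ₑ)) := by
        refine lintegral_mono fun x => ?_
        simp only [Real.enorm_eq_ofReal_abs]
        rw [← ENNReal.ofReal_add (abs_nonneg _) (abs_nonneg _),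
          ← ENNReal.ofReal_add (abs_nonneg _) (by positivity)]
        apply ENNReal.ofReal_le_ofReal
        calc |g (x + v) - g x| = |(f (x + v) - f x) + (-(f (x + v) - g (x + v)) + (f x - g x))| := by
              congr 1; ring
          _ ≤ |f (x + v) - f x| + |-(f (x + v) - g (x + v)) + (f x - g x)| := abs_add_le _ _
          _ ≤ _ := by
              gcongr
              exact (abs_add_le _ _).trans (by rw [abs_neg])
    _ = _ := by
        have m1 : Measurable fun x => ‖f (x + v) - f x‖ₑ :=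
          ((hf.comp (measurable_add_const v)).sub hf).enorm
        have m2 : Measurable fun x => ‖f x - g x‖ₑ := (hf.sub hg).enorm
        rw [lintegral_add_left m1,
          lintegral_add_right _ m2,
          lintegral_add_right_eq_self (μ := (volume : Measure (X d)))
            (fun x => ‖f x - g x‖ₑ) v, two_mul]

/-- One exponent of the tail, against a majorant `g`. -/
theorem tail_part {f g : X d → ℝ} (hf : Measurable f) (hg : Measurable g)
    (htr : ∀ v, ∫⁻ x, ‖f (x + v) - f x‖ₑ ≤ ∫⁻ x, ‖g (x + v) - g x‖ₑ)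
    (S : X d → ℝ≥0∞) (hS : ∀ k w, osc g k w ≤ S w) (hfin : ∀ k w, osc g k w ≠ ⊤)
    (m : ℕ) (j : ℤ) :
    (∑' k : ℤ, if k < j then trip (m + 1) f k else 0) ≤
      (m + 1 : ℕ) * (∫⁻ w in ball (0 : X d) Kc, (S w - osc g j w)) +
        (∑ i ∈ Finset.range (m + 1), ENNReal.ofReal ((2:ℝ) ^ (j - 1 - (i:ℤ)))⁻¹) *
          (2 * ∫⁻ x, ‖f x - g x‖ₑ) * volume (ball (0 : X d) Kc) := by
  set D : ℝ≥0∞ := (∑ i ∈ Finset.range (m + 1), ENNReal.ofReal ((2:ℝ) ^ (j - 1 - (i:ℤ)))⁻¹) *
          (2 * ∫⁻ x, ‖f x - g x‖ₑ) with hD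
  calc (∑' k : ℤ, if k < j then trip (m + 1) f k else 0)
      ≤ ∑' k : ℤ, ∫⁻ w in ball (0 : X d) Kc, (if k < j then defect (m + 1) f k w else 0) := by
        refine ENNReal.tsum_le_tsum fun k => ?_
        split_ifs
        · exact trip_le hf _ k
        · simp
    _ = ∫⁻ w in ball (0 : X d) Kc, ∑' k : ℤ, (if k < j then defect (m + 1) f k w else 0) := by
        refine (lintegral_tsum fun k => Measurable.aemeasurable ?_).symm
        split_ifs
        · exact measurable_defect hf _ k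
        · exact measurable_const
    _ ≤ ∫⁻ w in ball (0 : X d) Kc, ((m + 1 : ℕ) * (S w - osc g j w) + D) := by
        refine lintegral_mono fun w => ?_
        set T := ∑' k : ℤ, (if k < j then defect (m + 1) f k w else 0)
        set F := ∑ i ∈ Finset.range (m + 1), osc f (j - 1 - i) w
        have h1 : T + F ≤ (m + 1 : ℕ) * S w := tsum_defect_add_le hf m w j (S w) fun k =>
          (osc_le_of_translate_le htr k w).trans (hS k w)
        have h2 : ((m + 1 : ℕ) : ℝ≥0∞) * osc g j w ≤ F + D := by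
          calc ((m + 1 : ℕ) : ℝ≥0∞) * osc g j w = ∑ _i ∈ Finset.range (m + 1), osc g j w := by simp
            _ ≤ ∑ i ∈ Finset.range (m + 1), (osc f (j - 1 - i) w +
                ENNReal.ofReal ((2:ℝ) ^ (j - 1 - (i:ℤ)))⁻¹ * (2 * ∫⁻ x, ‖f x - g x‖ₑ)) :=
              Finset.sum_le_sum fun i _ => ((osc_antitone hg w) (by omega)).trans
                (osc_le_add_dist hf hg _ w)
            _ = F + D := by rw [Finset.sum_add_distrib, hD, Finset.sum_mul]
        have h3 : T + ((m + 1 : ℕ) : ℝ≥0∞) * osc g j w ≤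
            ((m + 1 : ℕ) * (S w - osc g j w) + D) + ((m + 1 : ℕ) : ℝ≥0∞) * osc g j w := by
          calc _ ≤ T + (F + D) := by gcongr
            _ = (T + F) + D := (add_assoc _ _ _).symm
            _ ≤ (m + 1 : ℕ) * S w + D := by gcongr
            _ = _ := by
                rw [add_right_comm, ← mul_add, tsub_add_cancel_of_le (hS j w)]
        exact (ENNReal.add_le_add_iff_right
          (ENNReal.mul_ne_top (ENNReal.natCast_ne_top _) (hfin j w))).mp h3
    _ = _ := by
        rw [lintegral_add_right _ measurable_const, setLIntegral_const,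
          lintegral_const_mul' _ _ (ENNReal.natCast_ne_top _)]

theorem tail_zpow_le (f : X d → ℝ) (j : ℤ) :
    tail f ((2:ℝ) ^ j) = (∑' k : ℤ, if k < j then trip (15 + 1) f k else 0) +
      ∑' k : ℤ, if k < j then trip (3 + 1) f k else 0 := by
  rw [← ENNReal.tsum_add]
  refine tsum_congr fun k => ?_
  simp only [zpow_lt_zpow_iff_right₀ (one_lt_two (α := ℝ)), mShort, mLong]
  split_ifs <;> simp

/-- The small-scale triple functionals are uniformly small along regularisations. -/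
theorem tailVanish : TailVanish := by
  intro d g₀ A gs hg₀ hA hcore htr₀ hlim₀ ε hε
  set g := hg₀.1.mk g₀ with hgdef
  have hg : Measurable g := hg₀.1.stronglyMeasurable_mk.measurable
  have hae : g₀ =ᵐ[volume] g := hg₀.1.ae_eq_mk
  have htrans : ∀ v, ∫⁻ x, ‖g₀ (x + v) - g₀ x‖ₑ = ∫⁻ x, ‖g (x + v) - g x‖ₑ := by
    intro v
    refine lintegral_congr_ae ?_
    have hs : (fun x => g₀ (x + v)) =ᵐ[volume] fun x => g (x + v) :=
      (measurePreserving_add_right (volume : Measure (X d)) v).quasiMeasurePreserving.ae_eq hae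
    filter_upwards [hae, hs] with x hx hx'
    rw [hx, hx']
  have htr : ∀ n v, ∫⁻ x, ‖gs n (x + v) - gs n x‖ₑ ≤ ∫⁻ x, ‖g (x + v) - g x‖ₑ :=
    fun n v => (htr₀ n v).trans (htrans v).le
  have hlim : Tendsto (fun n => ∫⁻ x, ‖gs n x - g x‖ₑ) atTop (𝓝 0) := by
    refine hlim₀.congr fun n => lintegral_congr_ae ?_
    filter_upwards [hae] with x hx
    rw [hx]
  have hV : ∀ k w, osc g k w ≤ ENNReal.ofReal (A * ‖w‖) := by
    intro k w
    have h2 : (0:ℝ) < (2:ℝ) ^ k := by positivity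
    refine (mul_le_mul_right ((htrans _).symm.trans_le (hA _)) _).trans (le_of_eq ?_)
    rw [← ENNReal.ofReal_mul (by positivity), norm_smul, Real.norm_eq_abs, abs_of_pos h2]
    congr 1
    field_simp
  have hfin : ∀ k w, osc g k w ≠ ⊤ := fun k w => ne_top_of_le_ne_top ENNReal.ofReal_ne_top (hV k w)
  set S : X d → ℝ≥0∞ := fun w => ⨆ N : ℕ, osc g (-(N:ℤ)) w
  have hS : ∀ k w, osc g k w ≤ S w := fun k w =>
    (osc_antitone hg w (by omega : -(k.natAbs : ℤ) ≤ k)).trans
      (le_iSup (fun N : ℕ => osc g (-(N:ℤ)) w) k.natAbs)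
  have hSfin : ∀ w, S w ≤ ENNReal.ofReal (A * ‖w‖) := fun w => iSup_le fun N => hV _ w
  have hb : volume (ball (0 : X d) Kc) ≠ ⊤ := measure_ball_lt_top.ne
  have hgap : Tendsto (fun N : ℕ => ∫⁻ w in ball (0 : X d) Kc, (S w - osc g (-(N:ℤ)) w))
      atTop (𝓝 0) := by
    have hSm : Measurable S := .iSup fun N => measurable_osc hg _
    have h := tendsto_lintegral_of_dominated_convergence
      (μ := (volume : Measure (X d)).restrict (ball 0 Kc))
      (F := fun N : ℕ => fun w => S w - osc g (-(N:ℤ)) w) (f := fun _ => 0)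
      (fun _ => ENNReal.ofReal (|A| * Kc)) (fun N => hSm.sub (measurable_osc hg _))
      (fun N => by
        filter_upwards [ae_restrict_mem measurableSet_ball] with w hw
        refine tsub_le_self.trans ((hSfin w).trans (ENNReal.ofReal_le_ofReal ?_))
        calc A * ‖w‖ ≤ |A| * ‖w‖ := mul_le_mul_of_nonneg_right (le_abs_self A) (norm_nonneg w)
          _ ≤ |A| * Kc := mul_le_mul_of_nonneg_left (le_of_lt (by simpa using hw)) (abs_nonneg A))
      (by rw [setLIntegral_const]; exact ENNReal.mul_ne_top ENNReal.ofReal_ne_top hb)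
      (Eventually.of_forall fun w => by
        have ht : Tendsto (fun N : ℕ => osc g (-(N:ℤ)) w) atTop (𝓝 (S w)) :=
          tendsto_atTop_iSup fun a b hab => osc_antitone hg w (by omega)
        have hSt : S w ≠ ⊤ := ne_top_of_le_ne_top ENNReal.ofReal_ne_top (hSfin w)
        simpa using ENNReal.Tendsto.sub tendsto_const_nhds ht (Or.inl hSt))
    simpa using h
  have h20 : Tendsto (fun N : ℕ => ((15 + 1 : ℕ) : ℝ≥0∞) *
      (∫⁻ w in ball (0 : X d) Kc, (S w - osc g (-(N:ℤ)) w)) + ((3 + 1 : ℕ) : ℝ≥0∞) *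
      (∫⁻ w in ball (0 : X d) Kc, (S w - osc g (-(N:ℤ)) w))) atTop (𝓝 0) := by
    simpa using (ENNReal.Tendsto.const_mul hgap (Or.inr (ENNReal.natCast_ne_top (15 + 1)))).add
      (ENNReal.Tendsto.const_mul hgap (Or.inr (ENNReal.natCast_ne_top (3 + 1))))
  have hε2 : (0:ℝ≥0∞) < ENNReal.ofReal (ε / 2) := ENNReal.ofReal_pos.mpr (half_pos hε)
  obtain ⟨N, hN⟩ := (h20.eventually_le_const hε2).exists
  set j : ℤ := -(N:ℤ)
  refine ⟨(2:ℝ) ^ j, by positivity, ?_⟩
  set cS : ℕ → ℝ≥0∞ := fun m =>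
    ∑ i ∈ Finset.range (m + 1), ENNReal.ofReal ((2:ℝ) ^ (j - 1 - (i:ℤ)))⁻¹ with hcS
  have hC : (cS 15 + cS 3) * 2 * volume (ball (0 : X d) Kc) ≠ ⊤ :=
    ENNReal.mul_ne_top (ENNReal.mul_ne_top (ENNReal.add_ne_top.mpr
      ⟨(ENNReal.sum_ne_top.mpr fun i _ => ENNReal.ofReal_ne_top),
        (ENNReal.sum_ne_top.mpr fun i _ => ENNReal.ofReal_ne_top)⟩) (by simp)) hb
  have hE := ENNReal.Tendsto.const_mul hlim (Or.inr hC)
  rw [mul_zero] at hE
  filter_upwards [hE.eventually_le_const hε2] with n hn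
  rw [tail_zpow_le]
  refine (add_le_add
    (tail_part (hcore n).1.continuous.measurable hg (htr n) S hS hfin 15 j)
    (tail_part (hcore n).1.continuous.measurable hg (htr n) S hS hfin 3 j)).trans ?_
  rw [add_add_add_comm]
  refine (add_le_add hN (le_trans (le_of_eq ?_) hn)).trans (le_of_eq ?_)
  · simp only [hcS]; ring
  · rw [← ENNReal.ofReal_add (by positivity) (by positivity), add_halves]

end Vale.Agent.P137
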