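import Vale.Agent.P137.Defs

/-!
P137: exterior shells of a set made of balls with targets in a superlevel set.

For a point `z` of the shell and a direction `w` towards the target, `f` rises from at most `lam`
to more than `lam + h` along the ray, and only a part of length `O(ε)` of the parameters seen from
a fixed point of the ray is admissible.
-/

open MeasureTheory Metric Set
open scoped ENNReal Topology

noncomputable section

namespace Vale.Agent.P137

/-- A continuously differentiable function rising from at most `lam` to at least `lam + h` has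
variation at least `h` inside the band. -/
lemma band_rise {g g' : ℝ → ℝ} {T lam h : ℝ} (hT : 0 ≤ T)
    (hd : ∀ s, HasDerivAt g (g' s) s) (hc : Continuous g')
    (h0 : g 0 ≤ lam) (h1 : lam + h ≤ g T) :
    ENNReal.ofReal h ≤
      ∫⁻ s in Icc 0 T, {s | lam < g s ∧ g s < lam + h}.indicator (fun s => ‖g' s‖ₑ) s := by
  have hg : Continuous g := continuous_iff_continuousAt.2 fun s => (hd s).continuousAt
  obtain ⟨b, hbmem, hbleast⟩ :=
    ((isCompact_Icc (a := (0:ℝ)) (b := T)).inter_right
      (isClosed_le continuous_const hg)).exists_isLeast ⟨T, right_mem_Icc.2 hT, h1⟩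
  have hb0 : 0 ≤ b := hbmem.1.1
  have hgb : lam + h ≤ g b := hbmem.2
  obtain ⟨a, hamem, hagreat⟩ :=
    ((isCompact_Icc (a := (0:ℝ)) (b := b)).inter_right
      (isClosed_le hg continuous_const)).exists_isGreatest ⟨0, left_mem_Icc.2 hb0, h0⟩
  have hga : g a ≤ lam := hamem.2
  have hab : a ≤ b := hamem.1.2
  have hftc : ∫ s in a..b, g' s = g b - g a :=
    intervalIntegral.integral_eq_sub_of_hasDerivAt (fun s _ => hd s) (hc.intervalIntegrable a b)
  calc ENNReal.ofReal h
      ≤ ‖∫ s in a..b, g' s‖ₑ := by
        rw [Real.enorm_eq_ofReal_abs, hftc]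
        exact ENNReal.ofReal_le_ofReal (le_trans (by linarith) (le_abs_self _))
    _ ≤ ∫⁻ s in Ioc a b, ‖g' s‖ₑ := by
        rw [intervalIntegral.integral_of_le hab]
        exact enorm_integral_le_lintegral_enorm _
    _ = ∫⁻ s in Ioo a b, ‖g' s‖ₑ := by rw [setLIntegral_congr Ioo_ae_eq_Ioc]
    _ = ∫⁻ s in Ioo a b, {s | lam < g s ∧ g s < lam + h}.indicator (fun s => ‖g' s‖ₑ) s := by
        refine setLIntegral_congr_fun measurableSet_Ioo fun s hs => ?_
        rw [Set.indicator_of_mem]
        refine ⟨?_, ?_⟩
        · by_contra hcon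
          have hmem : s ∈ Icc 0 b ∩ {u | g u ≤ lam} :=
            ⟨⟨hamem.1.1.trans hs.1.le, hs.2.le⟩, not_lt.1 hcon⟩
          exact absurd (hagreat hmem) (not_le.2 hs.1)
        · by_contra hcon
          have hmem : s ∈ Icc 0 T ∩ {u | lam + h ≤ g u} :=
            ⟨⟨hamem.1.1.trans hs.1.le, hs.2.le.trans hbmem.1.2⟩, not_lt.1 hcon⟩
          exact absurd (hbleast hmem) (not_le.2 hs.2)
    _ ≤ _ := lintegral_mono_set
        (Ioo_subset_Icc_self.trans (Icc_subset_Icc hamem.1.1 hbmem.1.2))

theorem shellBound : ShellBound := by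
  intro d κ L hκ hL
  set v₁ : ℝ≥0∞ := volume (ball (0 : X d) 1) with hv₁def
  have hv₁ : v₁ ≠ ⊤ := measure_ball_lt_top.ne
  refine ⟨10 * L * v₁.toReal * 10 ^ d / κ, ?_⟩
  intro f hf lam h ε R hh hε U O hU hO ι I c r T hI
  set S : Set (X d) := {z ∈ O \ U | f z ≤ lam ∧ ∃ i ∈ I, z ∈ ball (c i) (r i + ε)} with hSdef
  have hfc : Continuous f := hf.1.continuous
  have hf' : Continuous fun y => fderiv ℝ f y := hf.1.continuous_fderiv one_ne_zero
  have hS : MeasurableSet S := by
    have : S = (O \ U) ∩ {z | f z ≤ lam} ∩ ⋃ i ∈ I, ball (c i) (r i + ε) := by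
      ext z
      simp only [hSdef, Set.mem_ofPred_eq, Set.mem_inter_iff, Set.mem_iUnion, exists_prop, and_assoc]
    rw [this]
    exact ((hO.diff hU.measurableSet).inter (isClosed_le hfc continuous_const).measurableSet).inter
      (isOpen_biUnion fun i _ => isOpen_ball).measurableSet
  set band : Set (X d) := {y | lam < f y ∧ f y < lam + h} with hband
  set F : X d → ℝ≥0∞ := band.indicator (fun y => ‖fderiv ℝ f y‖ₑ) with hFdef
  have hFm : Measurable F :=
    hf'.enorm.measurable.indicator
      ((isOpen_lt continuous_const hfc).inter (isOpen_lt hfc continuous_const)).measurableSet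
  set a : ℝ := 10 * L * ε with hadef
  set adm : Set ((X d × X d) × ℝ) :=
    {q | q.2 < a} ∪ {q | ∀ t ∈ Icc (0:ℝ) 1, q.1.1 + (a + t * (q.2 - a)) • q.1.2 ∈ U} with hadm
  have hadmm : MeasurableSet adm := by
    refine (IsOpen.union (isOpen_lt continuous_snd continuous_const) ?_).measurableSet
    rw [isOpen_iff_mem_nhds]
    intro q hq
    refine (isCompact_Icc : IsCompact (Icc (0:ℝ) 1)).eventually_forall_of_forall_eventually
      fun t ht => ?_
    have hcont : Continuous fun x : ((X d × X d) × ℝ) × ℝ =>
        x.1.1.1 + (a + x.2 * (x.1.2 - a)) • x.1.1.2 := by fun_prop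
    exact hcont.continuousAt.eventually (hU.mem_nhds (hq t ht))
  have hadm_seg : ∀ (z w : X d) (s σ : ℝ), ((z, w), s) ∈ adm → a ≤ σ → σ ≤ s →
      z + σ • w ∈ U := by
    intro z w s σ hq h1 h2
    rcases hq with hq | hq
    · exact absurd (show s < a from hq) (not_lt.2 (h1.trans h2))
    · rcases eq_or_lt_of_le (h1.trans h2) with he | hlt
      · have := hq 0 (left_mem_Icc.2 zero_le_one)
        have hσ : σ = a := le_antisymm (he ▸ h2) h1
        simpa [hσ] using this
      · have := hq ((σ - a) / (s - a)) ⟨div_nonneg (sub_nonneg.2 h1) (sub_nonneg.2 hlt.le),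
          (div_le_one (sub_pos.2 hlt)).2 (by linarith)⟩
        rwa [div_mul_cancel₀ _ (sub_pos.2 hlt).ne', add_sub_cancel] at this
  set G : X d → X d → ℝ → ℝ≥0∞ := fun z w s =>
    S.indicator (1 : X d → ℝ≥0∞) z * (F (z + s • w) * adm.indicator 1 ((z, w), s)) with hG
  set μs : Measure ℝ := volume.restrict (Icc (0:ℝ) (10 * R)) with hμs
  set μw : Measure (X d) := volume.restrict (ball (0 : X d) 1) with hμw
  -- every point of the shell sees the band
  have low : ∀ z, S.indicator (fun _ => ENNReal.ofReal (κ / 10 ^ d * h)) z ≤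
      ∫⁻ w, ∫⁻ s, G z w s ∂μs ∂μw := by
    intro z
    by_cases hz : z ∈ S
    swap
    · simp [Set.indicator_of_notMem hz]
    obtain ⟨hzOU, hzf, i, hi, hzi⟩ := hz
    have hzS : z ∈ S := ⟨hzOU, hzf, i, hi, hzi⟩
    obtain ⟨hr, hrR, hεr, hTm, hTsub, hTvol, hseg⟩ := hI i hi
    set r0 := r i with hr0
    rw [Set.indicator_of_mem hzS]
    set W : Set (X d) := (fun w => z + w) ∘ (fun w => (10 * r0) • w) ⁻¹' (T i ∩ {p | lam + h < f p})
      with hW
    have hWsub : W ⊆ ball 0 1 := by
      intro w hw
      have hp := hTsub hw.1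
      simp only [mem_ball, Function.comp_apply, dist_eq_norm] at hp hzi ⊢
      have h10 : ‖(10 * r0) • w‖ < 10 * r0 := by
        have : (10 * r0) • w = (z + (10 * r0) • w - c i) - (z - c i) := by abel
        rw [this]
        calc _ ≤ ‖z + (10 * r0) • w - c i‖ + ‖z - c i‖ := norm_sub_le _ _
          _ < 4 * r0 + (r0 + ε) := add_lt_add hp hzi
          _ ≤ 10 * r0 := by linarith
      rw [norm_smul, Real.norm_of_nonneg (by positivity)] at h10
      simpa using (mul_lt_iff_lt_one_right (by positivity)).1 h10
    have hWm : MeasurableSet W :=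
      (hTm.inter (isOpen_lt continuous_const hfc).measurableSet).preimage (by fun_prop)
    have hWvol : ENNReal.ofReal (κ / 10 ^ d) ≤ volume W := by
      rw [hW, Set.preimage_comp, Measure.addHaar_preimage_smul _ (by positivity),
        measure_preimage_add, finrank_euclideanSpace_fin]
      calc ENNReal.ofReal (κ / 10 ^ d)
          = ENNReal.ofReal |((10 * r0) ^ d)⁻¹| * ENNReal.ofReal (κ * r0 ^ d) := by
            rw [abs_of_nonneg (by positivity), ← ENNReal.ofReal_mul (by positivity), mul_pow]
            congr 1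
            field_simp
        _ ≤ _ := by gcongr
    calc ENNReal.ofReal (κ / 10 ^ d * h)
        = ENNReal.ofReal (κ / 10 ^ d) * ENNReal.ofReal h := ENNReal.ofReal_mul (by positivity)
      _ ≤ volume W * ENNReal.ofReal h := by gcongr
      _ = ∫⁻ _w in W, ENNReal.ofReal h := by rw [setLIntegral_const, mul_comm]
      _ ≤ ∫⁻ w in W, ∫⁻ s, G z w s ∂μs := by
        refine setLIntegral_mono' hWm fun w hw => ?_
        have hp : f (z + (10 * r0) • w) > lam + h := hw.2
        have hd' : ∀ s, HasDerivAt (fun s : ℝ => f (z + s • w)) (fderiv ℝ f (z + s • w) w) s := by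
          intro s
          exact (hf.1.differentiable one_ne_zero _).hasFDerivAt.comp_hasDerivAt s
            (by simpa using ((hasDerivAt_id s).smul_const w).const_add z)
        have hb := band_rise (lam := lam) (h := h) (T := 10 * r0) (by positivity) hd'
          (by fun_prop) (by simpa using hzf) hp.le
        refine hb.trans ?_
        refine (setLIntegral_mono' measurableSet_Icc fun s hs => ?_).trans
          (lintegral_mono_set (Icc_subset_Icc le_rfl (by linarith)))
        have hw1 : ‖w‖ ≤ 1 := (mem_ball_zero_iff.1 (hWsub hw)).le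
        have hmem : ((z, w), s) ∈ adm := by
          by_cases hs' : s < a
          · exact Or.inl hs'
          refine Or.inr fun t ht => ?_
          have hrew : z + (a + t * (s - a)) • w =
              z + ((a + t * (s - a)) / (10 * r0)) • (z + (10 * r0) • w - z) := by
            rw [add_sub_cancel_left, smul_smul, div_mul_cancel₀ _ (by positivity)]
          rw [hrew]
          have hσ1 : a ≤ a + t * (s - a) := le_add_of_nonneg_right
            (mul_nonneg ht.1 (by linarith))
          have hσ2 : a + t * (s - a) ≤ 10 * r0 := by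
            nlinarith [mul_le_mul_of_nonneg_right ht.2 (show 0 ≤ s - a by linarith), hs.2]
          refine hseg z ⟨hzi, hzOU.2⟩ _ hw.1 _ ?_ ((div_le_one (by positivity)).2 hσ2)
          rw [le_div_iff₀ (by positivity)]
          calc L * ε / r0 * (10 * r0) = a := by rw [hadef]; field_simp
            _ ≤ _ := hσ1
        simp only [hG, Set.indicator_of_mem hzS, Set.indicator_of_mem hmem, Pi.one_apply, one_mul,
          mul_one, hFdef, hband]
        by_cases hin : lam < f (z + s • w) ∧ f (z + s • w) < lam + h
        · rw [Set.indicator_of_mem (by exact hin), Set.indicator_of_mem (by exact hin)]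
          refine ((fderiv ℝ f (z + s • w)).le_opENorm w).trans ?_
          refine mul_le_of_le_one_right' ?_
          rw [← ofReal_norm]
          exact ENNReal.ofReal_le_one.2 hw1
        · rw [Set.indicator_of_notMem (by exact hin)]
          exact zero_le
      _ ≤ _ := lintegral_mono' (Measure.restrict_mono hWsub le_rfl) le_rfl
  -- admissible parameters form a short interval
  have inner : ∀ (w y : X d), w ∈ ball (0 : X d) 1 →
      ∫⁻ s, G (y - s • w) w s ∂μs ≤
        (thickening (16 * R) O).indicator F y * ENNReal.ofReal a := by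
    intro w y hw
    set A : Set ℝ := {s | s ∈ Icc 0 (10 * R) ∧ y - s • w ∈ S ∧ ((y - s • w, w), s) ∈ adm}
    have hAd : volume A ≤ ENNReal.ofReal a := by
      refine (Real.volume_le_diam A).trans (ediam_le fun s hs s' hs' => ?_)
      rw [edist_dist]
      refine ENNReal.ofReal_le_ofReal ?_
      rw [Real.dist_eq]
      have key : ∀ {u u'}, u ∈ A → u' ∈ A → u' - u ≤ a := by
        intro u u' hu hu'
        by_contra hcon
        have := hadm_seg _ _ _ (u' - u) hu'.2.2 (not_le.1 hcon).le (by linarith [hu.1.1])
        rw [sub_smul, sub_add_sub_cancel] at this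
        exact hu.2.1.1.2 this
      exact abs_sub_le_iff.2 ⟨key hs' hs, key hs hs'⟩
    calc ∫⁻ s, G (y - s • w) w s ∂μs
        ≤ ∫⁻ s, A.indicator (fun _ => (thickening (16 * R) O).indicator F y) s ∂μs := by
          refine setLIntegral_mono' measurableSet_Icc fun s hs => ?_
          simp only [hG, sub_add_cancel]
          by_cases h1 : y - s • w ∈ S
          swap
          · simp [Set.indicator_of_notMem h1]
          by_cases h2 : ((y - s • w, w), s) ∈ adm
          swap
          · simp [Set.indicator_of_notMem h2]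
          rw [Set.indicator_of_mem h1, Set.indicator_of_mem h2,
            Set.indicator_of_mem (show s ∈ A from ⟨hs, h1, h2⟩)]
          have hyO : y ∈ thickening (16 * R) O := by
            obtain ⟨⟨hzO, -⟩, -, i, hi, -⟩ := h1
            refine mem_thickening_iff.2 ⟨_, hzO, ?_⟩
            have hR : 0 < R := (hI i hi).1.trans_le (hI i hi).2.1
            rw [dist_self_sub_right, norm_smul, Real.norm_of_nonneg hs.1]
            calc s * ‖w‖ ≤ 10 * R * 1 :=
                  mul_le_mul hs.2 (mem_ball_zero_iff.1 hw).le (norm_nonneg _) (by positivity)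
              _ < 16 * R := by linarith
          rw [Set.indicator_of_mem hyO]
          simp
      _ ≤ ∫⁻ s, A.indicator (fun _ => (thickening (16 * R) O).indicator F y) s :=
          setLIntegral_le_lintegral _ _
      _ ≤ _ := (lintegral_indicator_const_le _ _).trans (by gcongr)
  -- Fubini
  have hGm : Measurable fun q : (X d × X d) × ℝ => G q.1.1 q.1.2 q.2 := by
    refine Measurable.mul ((measurable_one.indicator hS).comp (by fun_prop)) ?_
    exact (hFm.comp (by fun_prop)).mul (measurable_one.indicator hadmm)
  have key : volume S * ENNReal.ofReal (κ / 10 ^ d * h) ≤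
      v₁ * (ENNReal.ofReal a * ∫⁻ y in thickening (16 * R) O, F y) := by
    calc volume S * ENNReal.ofReal (κ / 10 ^ d * h)
        = ∫⁻ z, S.indicator (fun _ => ENNReal.ofReal (κ / 10 ^ d * h)) z := by
          rw [lintegral_indicator_const hS, mul_comm]
      _ ≤ ∫⁻ z, ∫⁻ w, ∫⁻ s, G z w s ∂μs ∂μw := lintegral_mono low
      _ = ∫⁻ w, ∫⁻ z, ∫⁻ s, G z w s ∂μs ∂volume ∂μw :=
          lintegral_lintegral_swap (hGm.lintegral_prod_right').aemeasurable
      _ ≤ ∫⁻ _w : X d, (ENNReal.ofReal a * ∫⁻ y in thickening (16 * R) O, F y) ∂μw := by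
          refine setLIntegral_mono' measurableSet_ball fun w hw => ?_
          have hm1 : Measurable fun p : X d × ℝ => G p.1 w p.2 :=
            hGm.comp (f := fun p : X d × ℝ => ((p.1, w), p.2)) (by fun_prop)
          have hm2 : Measurable fun p : ℝ × X d => G (p.2 - p.1 • w) w p.1 :=
            hm1.comp (f := fun p : ℝ × X d => (p.2 - p.1 • w, p.1)) (by fun_prop)
          calc ∫⁻ z, ∫⁻ s, G z w s ∂μs
              = ∫⁻ s, ∫⁻ z, G z w s ∂volume ∂μs := lintegral_lintegral_swap hm1.aemeasurable
            _ = ∫⁻ s, ∫⁻ y, G (y - s • w) w s ∂volume ∂μs := by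
                refine lintegral_congr fun s => ?_
                exact (lintegral_sub_right_eq_self (fun z => G z w s) _).symm
            _ = ∫⁻ y, ∫⁻ s, G (y - s • w) w s ∂μs := lintegral_lintegral_swap hm2.aemeasurable
            _ ≤ ∫⁻ y, (thickening (16 * R) O).indicator F y * ENNReal.ofReal a :=
                lintegral_mono fun y => inner w y hw
            _ = _ := by
                rw [lintegral_mul_const _ (hFm.indicator isOpen_thickening.measurableSet),
                  lintegral_indicator isOpen_thickening.measurableSet, mul_comm]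
      _ = _ := by rw [lintegral_const, hμw, Measure.restrict_apply_univ, mul_comm, ← hv₁def]
  have hc0 : 0 < κ / 10 ^ d * h := by positivity
  rw [← ENNReal.le_div_iff_mul_le (Or.inl (by simpa using hc0)) (Or.inl ENNReal.ofReal_ne_top)]
    at key
  refine key.trans (le_of_eq ?_)
  rw [← ENNReal.ofReal_toReal hv₁, ← mul_assoc, ← ENNReal.ofReal_mul ENNReal.toReal_nonneg,
    mul_comm (ENNReal.ofReal _) (∫⁻ y in _, F y), mul_div_assoc,
    ← ENNReal.ofReal_div_of_pos hc0, mul_comm, ENNReal.toReal_ofReal ENNReal.toReal_nonneg]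
  congr 2
  rw [hadef]
  field_simp

end Vale.Agent.P137
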