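import Mathlib

/-!
P137: the uncentred maximal operator on `W^{1,1}`.

Definitions and the interfaces between the modules.
-/

open MeasureTheory Metric
open scoped ENNReal Topology ContDiff

noncomputable section

namespace Vale.Agent.P137

/-- Euclidean space of dimension `d`. -/
abbrev X (d : ℕ) := EuclideanSpace ℝ (Fin d)

variable {d : ℕ}

/-! ### The statement -/

/-- The uncentred maximal function: supremum of the averages of `|f|` over all open Euclidean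
balls containing the point. -/
def maxFun (f : X d → ℝ) (x : X d) : ℝ≥0∞ :=
  ⨆ (c : X d) (r : ℝ) (_ : x ∈ ball c r), (volume (ball c r))⁻¹ * ∫⁻ y in ball c r, ‖f y‖ₑ

/-- `G` is the weak gradient of `f`. -/
def IsWeakGrad (f : X d → ℝ) (G : Fin d → X d → ℝ) : Prop :=
  ∀ (i : Fin d) (φ : X d → ℝ), ContDiff ℝ ∞ φ → HasCompactSupport φ →
    ∫ x, f x * fderiv ℝ φ x (EuclideanSpace.single i 1) = -∫ x, G i x * φ x

/-- Endpoint Sobolev regularity of the uncentred maximal operator. -/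
def MaximalW11 : Prop :=
  ∀ d : ℕ, 1 ≤ d → ∃ C : ℝ, ∀ (f : X d → ℝ) (G : Fin d → X d → ℝ),
    Integrable f → (∀ i, Integrable (G i)) → IsWeakGrad f G →
      (∀ᵐ x, maxFun f x < ⊤) ∧
      LocallyIntegrable (fun x => (maxFun f x).toReal) ∧
      ∃ H : Fin d → X d → ℝ, (∀ i, Integrable (H i)) ∧
        IsWeakGrad (fun x => (maxFun f x).toReal) H ∧
        ∑ i, ∫ x, |H i x| ≤ C * ∑ i, ∫ x, |G i x|

/-! ### The core problem -/

/-- Regular nonnegative inputs. -/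
def CoreFun (f : X d → ℝ) : Prop :=
  ContDiff ℝ 1 f ∧ Integrable f ∧ (∀ x, 0 ≤ f x) ∧ ∫⁻ x, ‖fderiv ℝ f x‖ₑ < ⊤

/-- The average over the ball with centre `B.1` and radius `B.2`. -/
def avg (f : X d → ℝ) (B : X d × ℝ) : ℝ :=
  (volume (ball B.1 B.2)).toReal⁻¹ * ∫ x in ball B.1 B.2, f x

/-- The maximum of `f` and of its averages over the balls through the point with radius in
`[2 ^ (-n), 2 ^ n)`. -/
def rangeMax (n : ℕ) (f : X d → ℝ) (x : X d) : ℝ :=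
  max (f x) (sSup ((avg f) ''
    {B | x ∈ ball B.1 B.2 ∧ (2:ℝ) ^ (-(n:ℤ)) ≤ B.2 ∧ B.2 < (2:ℝ) ^ (n:ℤ)}))

/-- Failure of monotonicity of three values. -/
def N3 (a b c : ℝ) : ℝ := (|a - b| + |b - c| - |a - c|) / 2

/-- The point dividing `[y, p]` at the fraction `1 / 2 ^ m`. -/
def node (m : ℕ) (y p : X d) : X d := y + ((2:ℝ) ^ m)⁻¹ • (p - y)

/-- Radius factor in the triple functional. -/
def Kc : ℝ := 64

/-- Exponent of the short extrapolation. -/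
def mShort : ℕ := 16

/-- Exponent of the long extrapolation. -/
def mLong : ℕ := 4

/-- The triple functional at scale `2 ^ k` with exponent `m`. -/
def trip (m : ℕ) (f : X d → ℝ) (k : ℤ) : ℝ≥0∞ :=
  ENNReal.ofReal (((2:ℝ) ^ k) ^ (d + 1))⁻¹ *
    ∫⁻ y, ∫⁻ p in ball y (Kc * (2:ℝ) ^ k), ENNReal.ofReal (N3 (f y) (f (node m y p)) (f p))

/-- The triple functional below the scale `δ`. -/
def tail (f : X d → ℝ) (δ : ℝ) : ℝ≥0∞ :=
  ∑' k : ℤ, if (2:ℝ) ^ k < δ then trip mShort f k + trip mLong f k else 0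

/-- The triple functionals of all scales are controlled by the gradient. -/
def TripleBound : Prop :=
  ∀ d : ℕ, ∃ C : ℝ, ∀ f : X d → ℝ, CoreFun f →
    ∑' k : ℤ, (trip mShort f k + trip mLong f k) ≤ ENNReal.ofReal C * ∫⁻ x, ‖fderiv ℝ f x‖ₑ

/-- The small-scale triple functionals are uniformly small along regularisations. -/
def TailVanish : Prop :=
  ∀ (d : ℕ) (g : X d → ℝ) (A : ℝ) (gs : ℕ → X d → ℝ), Integrable g →
    (∀ v, ∫⁻ x, ‖g (x + v) - g x‖ₑ ≤ ENNReal.ofReal (A * ‖v‖)) →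
    (∀ n, CoreFun (gs n)) →
    (∀ n v, ∫⁻ x, ‖gs n (x + v) - gs n x‖ₑ ≤ ∫⁻ x, ‖g (x + v) - g x‖ₑ) →
    Filter.Tendsto (fun n => ∫⁻ x, ‖gs n x - g x‖ₑ) Filter.atTop (𝓝 0) →
    ∀ ε : ℝ, 0 < ε → ∃ δ : ℝ, 0 < δ ∧ ∀ᶠ n in Filter.atTop, tail (gs n) δ ≤ ENNReal.ofReal ε

/-- Exterior shells of a set made of balls with targets in a superlevel set. -/
def ShellBound : Prop :=
  ∀ (d : ℕ) (κ L : ℝ), 0 < κ → 0 < L → ∃ C : ℝ, ∀ f : X d → ℝ, CoreFun f →
    ∀ (lam h ε R : ℝ), 0 < h → 0 < ε → ∀ (U O : Set (X d)), IsOpen U → MeasurableSet O →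
    ∀ (ι : Type) (I : Set ι) (c : ι → X d) (r : ι → ℝ) (T : ι → Set (X d)),
      (∀ i ∈ I, 0 < r i ∧ r i ≤ R ∧ ε ≤ r i ∧ MeasurableSet (T i) ∧
        T i ⊆ ball (c i) (4 * r i) ∧
        ENNReal.ofReal (κ * r i ^ d) ≤ volume (T i ∩ {p | lam + h < f p}) ∧
        ∀ z ∈ ball (c i) (r i + ε) \ U, ∀ p ∈ T i, ∀ θ : ℝ, L * ε / r i ≤ θ → θ ≤ 1 →
          z + θ • (p - z) ∈ U) →
      volume {z ∈ O \ U | f z ≤ lam ∧ ∃ i ∈ I, z ∈ ball (c i) (r i + ε)} ≤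
        ENNReal.ofReal (C * ε / h) *
          ∫⁻ y in thickening (16 * R) O,
            {y | lam < f y ∧ f y < lam + h}.indicator (fun y => ‖fderiv ℝ f y‖ₑ) y

/-- The uniform and local bound for the truncated operators. -/
def CoreBound : Prop :=
  ∀ d : ℕ, 1 ≤ d → ∃ C : ℝ, 0 ≤ C ∧ ∀ f : X d → ℝ, CoreFun f → ∀ (n : ℕ) (v : X d),
    (∫⁻ x, ‖rangeMax n f (x + v) - rangeMax n f x‖ₑ ≤
      ENNReal.ofReal (C * ‖v‖) * ∫⁻ x, ‖fderiv ℝ f x‖ₑ) ∧
    ∀ (j : ℤ) (O : Set (X d)), MeasurableSet O →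
      ∫⁻ x in O, ‖rangeMax n f (x + v) - rangeMax n f x‖ₑ ≤ ENNReal.ofReal (C * ‖v‖) *
        (ENNReal.ofReal (((2:ℝ) ^ j) ^ d)⁻¹ * (∫⁻ x, ‖fderiv ℝ f x‖ₑ) * volume O +
          (∫⁻ x in thickening (C * (2:ℝ) ^ j + ‖v‖) O, ‖fderiv ℝ f x‖ₑ) +
          tail f (C * (2:ℝ) ^ j))

/-- The passage from the core bound to the maximal function of a Sobolev function. -/
def Passage : Prop := TailVanish → CoreBound → MaximalW11

end Vale.Agent.P137
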