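import Vale.Agent.P137.Extrap

/-!
The local dichotomy at unit scale.
-/

open MeasureTheory Metric
open scoped ENNReal RealInnerProductSpace

noncomputable section

namespace Vale.Agent.P137

variable {d : ℕ}

/-- Volume of the unit ball. -/
def omegaBall (d : ℕ) : ℝ := (volume (ball (0 : X d) 1)).toReal

lemma omegaBall_pos (d : ℕ) : 0 < omegaBall d :=
  ENNReal.toReal_pos (measure_ball_pos volume 0 one_pos).ne' measure_ball_lt_top.ne

lemma vol_ball_real (c : X d) {r : ℝ} (hr : 0 < r) :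
    (volume (ball c r)).toReal = r ^ d * omegaBall d := by
  rw [Measure.addHaar_ball_of_pos volume c hr, ENNReal.toReal_mul,
    ENNReal.toReal_ofReal (by positivity), finrank_euclideanSpace_fin]
  rfl

lemma lintegral_prof_lt_top {g : X d → ℝ} (hg : Continuous g) (σ a : ℝ) {S : Set (X d)}
    (hS : Bornology.IsBounded S) :
    ∫⁻ x in S, ENNReal.ofReal (prof σ a g x) < ⊤ := by
  obtain ⟨R, hR⟩ := hS.subset_closedBall 0
  have h := ((continuous_prof (σ := σ) (a := a) hg).continuousOn.integrableOn_compact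
    (isCompact_closedBall (0 : X d) R) (μ := volume)).hasFiniteIntegral
  refine lt_of_le_of_lt ((lintegral_mono_set hR).trans (lintegral_mono fun x => ?_)) h
  exact Real.ofReal_le_enorm _

/-- Real mass of a profile. -/
def mass (σ a : ℝ) (g : X d → ℝ) (S : Set (X d)) : ℝ :=
  (∫⁻ x in S, ENNReal.ofReal (prof σ a g x)).toReal

lemma mass_nonneg (σ a : ℝ) (g : X d → ℝ) (S : Set (X d)) : 0 ≤ mass σ a g S :=
  ENNReal.toReal_nonneg

lemma mass_eq_integral {g : X d → ℝ} (hg : Continuous g) (σ a : ℝ) (S : Set (X d)) :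
    mass σ a g S = ∫ x in S, prof σ a g x := by
  rw [integral_eq_lintegral_of_nonneg_ae (f := prof σ a g) (Filter.Eventually.of_forall fun x =>
    le_max_right _ _) (continuous_prof hg).aestronglyMeasurable]
  rfl

lemma mass_mono {g : X d → ℝ} (hg : Continuous g) (σ a : ℝ) {S T : Set (X d)}
    (hT : Bornology.IsBounded T) (h : S ⊆ T) : mass σ a g S ≤ mass σ a g T :=
  ENNReal.toReal_mono (lintegral_prof_lt_top hg σ a hT).ne (lintegral_mono_set h)

lemma lintegral_biUnion_le {β : Type*} (N : Finset β) (T : β → Set (X d)) (f : X d → ℝ≥0∞) :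
    ∫⁻ x in ⋃ c ∈ N, T c, f x ≤ ∑ c ∈ N, ∫⁻ x in T c, f x := by
  classical
  induction N using Finset.induction_on with
  | empty => simp
  | @insert b s hb ih =>
    rw [Finset.set_biUnion_insert, Finset.sum_insert hb]
    exact (lintegral_union_le _ _ _).trans (add_le_add le_rfl ih)

lemma mass_le_sum {g : X d → ℝ} (hg : Continuous g) (σ a : ℝ) {S : Set (X d)}
    (hS : Bornology.IsBounded S) (N : Finset (X d)) (T : X d → Set (X d))
    (h : S ⊆ ⋃ c ∈ N, T c) :
    mass σ a g S ≤ ∑ c ∈ N, mass σ a g (S ∩ T c) := by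
  have hfin : ∀ c ∈ N, ∫⁻ x in S ∩ T c, ENNReal.ofReal (prof σ a g x) ≠ ⊤ := fun c _ =>
    (lintegral_prof_lt_top hg σ a (hS.subset Set.inter_subset_left)).ne
  simp only [mass]
  rw [← ENNReal.toReal_sum hfin]
  refine ENNReal.toReal_mono (ENNReal.sum_ne_top.mpr hfin) ?_
  refine le_trans (lintegral_mono_set (t := ⋃ c ∈ N, S ∩ T c) ?_)
    (lintegral_biUnion_le _ _ _)
  intro x hx
  have := h hx
  simp only [Set.mem_iUnion] at this ⊢
  obtain ⟨c, hc, hxc⟩ := this
  exact ⟨c, hc, hx, hxc⟩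

/-- Real form of the extrapolation. -/
lemma extrap_real {g : X d → ℝ} (hg : Continuous g) {σ a : ℝ} (hσ : σ = 1 ∨ σ = -1)
    {Q S B Y : Set (X d)} (hQ : MeasurableSet Q) (hB : MeasurableSet B)
    (hQb : Bornology.IsBounded Q) (hSb : Bornology.IsBounded S) (hBb : Bornology.IsBounded B)
    {α β c : ℝ} (hβ : β ≠ 0) (hc0 : 0 ≤ c) (hc : c ≤ 1) (hΓ : gamma g ≠ ⊤)
    (hmem : ∀ x ∈ Q, ∀ p ∈ S, α • x + β • p ∈ Y)
    (hzero : ∀ y ∈ Y, y ∉ B → prof σ a g y = 0)
    (htri : ∫⁻ x in Q, ∫⁻ p in S, ENNReal.ofReal (N3 (g (α • x + β • p)) (g x) (g p)) ≤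
      ENNReal.ofReal c * gamma g) :
    ((volume S).toReal - |(β ^ d)⁻¹| * (volume B).toReal) * mass σ a g Q ≤
      (volume Q).toReal * mass σ a g S + (gamma g).toReal := by
  have h := extrap hg hσ hQ hB hβ hmem hzero
  have h' := h.trans (add_le_add_left (add_le_add_right htri _) _)
  have fQ := (lintegral_prof_lt_top hg σ a hQb).ne
  have fS := (lintegral_prof_lt_top hg σ a hSb).ne
  have vQ := hQb.measure_lt_top (μ := volume).ne
  have vB := hBb.measure_lt_top (μ := volume).ne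
  have f1 := ENNReal.mul_ne_top vQ fS
  have f2 : ENNReal.ofReal c * gamma g ≠ ⊤ := ENNReal.mul_ne_top ENNReal.ofReal_ne_top hΓ
  have f3 := ENNReal.mul_ne_top
    (ENNReal.mul_ne_top (ENNReal.ofReal_ne_top (r := |(β ^ d)⁻¹|)) vB) fQ
  have h'' := ENNReal.toReal_mono (ENNReal.add_ne_top.mpr ⟨ENNReal.add_ne_top.mpr ⟨f1, f2⟩, f3⟩) h'
  rw [ENNReal.toReal_add (ENNReal.add_ne_top.mpr ⟨f1, f2⟩) f3, ENNReal.toReal_add f1 f2,
    ENNReal.toReal_mul, ENNReal.toReal_mul, ENNReal.toReal_mul, ENNReal.toReal_mul,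
    ENNReal.toReal_mul, ENNReal.toReal_ofReal (abs_nonneg _), ENNReal.toReal_ofReal hc0] at h''
  have : c * (gamma g).toReal ≤ (gamma g).toReal :=
    mul_le_of_le_one_left ENNReal.toReal_nonneg hc
  simp only [mass]
  nlinarith

/-- Radius of the enlarged unit ball. -/
def tau : ℝ := 1 / 8192

/-- Tolerance of a class. -/
def tau' : ℝ := tau / 64

/-- Radius of the small balls. -/
def del : ℝ := 1 / 67108864

/-- Segment constant. -/
def Lseg : ℝ := 1000

lemma exists_unit (hd : 1 ≤ d) (h : X d) : ∃ e : X d, ‖e‖ = 1 ∧ h = ‖h‖ • e := by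
  rcases eq_or_ne h 0 with rfl | hne
  · exact ⟨EuclideanSpace.single ⟨0, hd⟩ 1, by simp, by simp⟩
  · refine ⟨‖h‖⁻¹ • h, by simp [norm_smul, hne], ?_⟩
    rw [smul_smul, mul_inv_cancel₀ (norm_ne_zero_iff.mpr hne), one_smul]

lemma norm_shift_sq {e : X d} (he : ‖e‖ = 1) (u : X d) (s : ℝ) :
    ‖u - s • e‖ ^ 2 = ‖u‖ ^ 2 - 2 * s * ⟪u, e⟫ + s ^ 2 := by
  rw [norm_sub_sq_real, inner_smul_right, norm_smul, he, mul_one, Real.norm_eq_abs, sq_abs]
  ring

lemma norm_mix_sq (q w : X d) (θ : ℝ) :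
    ‖q + θ • (w - q)‖ ^ 2
      = (1 - θ) * ‖q‖ ^ 2 + θ * ‖w‖ ^ 2 - θ * (1 - θ) * ‖w - q‖ ^ 2 := by
  have e : ‖w‖ ^ 2 = ‖q‖ ^ 2 + 2 * ⟪q, w - q⟫ + ‖w - q‖ ^ 2 := by
    rw [← norm_add_sq_real, add_sub_cancel]
  rw [e, norm_add_sq_real, inner_smul_right, norm_smul, Real.norm_eq_abs, mul_pow, sq_abs]
  ring

lemma inner_near_axis {e : X d} (he : ‖e‖ = 1) {a t : ℝ} {p : X d} (h : ‖p - a • e‖ < t) :
    a - t ≤ ⟪p, e⟫ := by
  have h1 : ⟪p, e⟫ = a + ⟪p - a • e, e⟫ := by
    rw [inner_sub_left, real_inner_smul_left, real_inner_self_eq_norm_sq, he]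
    ring
  have h2 := abs_real_inner_le_norm (p - a • e) e
  rw [he, mul_one] at h2
  linarith [neg_abs_le ⟪p - a • e, e⟫]

/-- The quadratic estimate for low points of a segment. -/
lemma seg_low_num {θ ε r q P D : ℝ} (hθ : 1000 * ε ≤ θ) (hθ6 : θ ≤ 6 / 10) (hε : 0 < ε)
    (hε' : ε ≤ 1 / 524288) (hr1 : 1 ≤ r) (hr : r ≤ 1 + 1 / 524288) (hq : q ≤ (r + ε) ^ 2)
    (hP : P ≤ 1 + 5 / 8192) (hD : (74 / 100) ^ 2 ≤ D) :
    (1 - θ) * q + θ * P - θ * (1 - θ) * D < r ^ 2 := by
  have hθ0 : 0 ≤ θ := by linarith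
  have g1 : 2 / 10 ≤ (1 - θ) * D := by
    have : (4 / 10 : ℝ) * (74 / 100) ^ 2 ≤ (1 - θ) * D :=
      mul_le_mul (by linarith) hD (by norm_num) (by linarith)
    linarith
  have g2 : θ * (2 / 10) ≤ θ * ((1 - θ) * D) := mul_le_mul_of_nonneg_left g1 hθ0
  have g3 : (1 - θ) * q ≤ (1 - θ) * (r + ε) ^ 2 := mul_le_mul_of_nonneg_left hq (by linarith)
  have g4 : θ * P ≤ θ * (1 + 5 / 8192) := mul_le_mul_of_nonneg_left hP hθ0
  have g5 : 1 ≤ (r + ε) ^ 2 := one_le_pow₀ (by linarith)
  have g6 : θ * 1 ≤ θ * (r + ε) ^ 2 := mul_le_mul_of_nonneg_left g5 hθ0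
  have g7 : (r + ε) ^ 2 = r ^ 2 + (2 * r + ε) * ε := by ring
  have g8 : (2 * r + ε) * ε ≤ 3 * ε := mul_le_mul_of_nonneg_right (by linarith) hε.le
  linarith

/-- Low points of a segment. -/
lemma seg_low {c z p : X d} {r ε θ : ℝ} (hθ : 1000 * ε ≤ θ) (hθ6 : θ ≤ 6 / 10) (hε : 0 < ε)
    (hε' : ε ≤ 1 / 524288) (hr1 : 1 ≤ r) (hr : r ≤ 1 + 1 / 524288) (hz : ‖z - c‖ ≤ r + ε)
    (hp : ‖p - c‖ ≤ 1 + 2 / 8192) (hD : 74 / 100 ≤ ‖p - z‖) :
    z + θ • (p - z) ∈ ball c r := by
  have e : z + θ • (p - z) - c = (z - c) + θ • ((p - c) - (z - c)) := by module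
  rw [mem_ball, dist_eq_norm, e]
  refine lt_of_pow_lt_pow_left₀ 2 (by linarith) ?_
  rw [norm_mix_sq, sub_sub_sub_cancel_right]
  refine seg_low_num hθ hθ6 hε hε' hr1 hr (pow_le_pow_left₀ (norm_nonneg _) hz 2) ?_
    (pow_le_pow_left₀ (by norm_num) hD 2)
  exact (pow_le_pow_left₀ (norm_nonneg _) hp 2).trans (by norm_num)

/-- High points of a segment. -/
lemma seg_high {e z p : X d} (he : ‖e‖ = 1) {θ : ℝ} (hθ0 : 0 ≤ θ) (hθ1 : θ ≤ 1)
    (hz : ‖z‖ ≤ 1 + 3 / 8192) (hp : ‖p‖ ≤ 1 + 3 / 8192)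
    (hlow : 1 / 16 < ⟪z + θ • (p - z), e⟫) :
    z + θ • (p - z) ∈ ball ((1 / 16 : ℝ) • e) 1 := by
  have hun : ‖z + θ • (p - z)‖ ≤ 1 + 3 / 8192 := by
    have h1 : z + θ • (p - z) = (1 - θ) • z + θ • p := by module
    rw [h1]
    refine (norm_add_le _ _).trans ?_
    rw [norm_smul, norm_smul, Real.norm_eq_abs, Real.norm_eq_abs, abs_of_nonneg hθ0,
      abs_of_nonneg (by linarith : 0 ≤ 1 - θ)]
    have h2 := mul_le_mul_of_nonneg_left hz (by linarith : 0 ≤ 1 - θ)
    have h3 := mul_le_mul_of_nonneg_left hp hθ0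
    linarith
  rw [mem_ball, dist_eq_norm]
  refine lt_of_pow_lt_pow_left₀ 2 zero_le_one ?_
  rw [norm_shift_sq he]
  have h1 := pow_le_pow_left₀ (norm_nonneg _) hun 2
  linarith

/-- Points of a segment towards a target near the centre. -/
lemma seg_small {c z p : X d} {r ε θ : ℝ} (hθ : 1000 * ε ≤ θ) (hθ1 : θ ≤ 1) (hε : 0 < ε)
    (hr1 : 1 ≤ r) (hz : ‖z - c‖ ≤ r + ε) (hp : ‖p - c‖ ≤ 9 / 10) :
    z + θ • (p - z) ∈ ball c r := by
  have h1 : z + θ • (p - z) - c = (1 - θ) • (z - c) + θ • (p - c) := by module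
  have hθ0 : 0 ≤ θ := by linarith
  rw [mem_ball, dist_eq_norm, h1]
  refine lt_of_le_of_lt (norm_add_le _ _) ?_
  rw [norm_smul, norm_smul, Real.norm_eq_abs, Real.norm_eq_abs, abs_of_nonneg hθ0,
    abs_of_nonneg (by linarith : 0 ≤ 1 - θ)]
  have h2 : (1 - θ) * ‖z - c‖ ≤ (1 - θ) * (r + ε) :=
    mul_le_mul_of_nonneg_left hz (by linarith)
  have h3 : θ * ‖p - c‖ ≤ θ * (9 / 10) := mul_le_mul_of_nonneg_left hp hθ0
  have h4 : θ * 1 ≤ θ * r := mul_le_mul_of_nonneg_left hr1 hθ0
  have h5 : 0 ≤ θ * ε := mul_nonneg hθ0 hε.le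
  linarith

/-- Segments from the shell of a class ball to the target stay in the two balls. -/
lemma segment_mem {e : X d} (he : ‖e‖ = 1) {a : ℝ} (ha0 : 0 ≤ a) (ha : a ≤ 1 + tau + del)
    {c : X d} {r ε : ℝ} (hc : ‖c‖ ≤ tau') (hr1 : 1 ≤ r) (hr : r ≤ 1 + tau') (hε : 0 < ε)
    (hε' : ε ≤ tau') {z p : X d} (hz : z ∈ ball c (r + ε))
    (hzB : z ∉ ball ((1 / 16 : ℝ) • e) 1)
    (hp : p ∈ ball (((65536:ℝ) / 65535 * a) • e) del) {θ : ℝ} (hθ : Lseg * ε ≤ θ) (hθ1 : θ ≤ 1) :
    z + θ • (p - z) ∈ ball c r ∪ ball ((1 / 16 : ℝ) • e) 1 := by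
  have tv : tau = 1 / 8192 := rfl
  have tv' : tau' = 1 / 524288 := by rw [tau', tau]; norm_num
  have dv : del = 1 / 67108864 := rfl
  rw [Lseg] at hθ
  rw [tv'] at hc hr hε'
  rw [tv, dv] at ha
  rw [mem_ball, dist_eq_norm] at hz hp
  rw [dv] at hp
  set a' := (65536:ℝ) / 65535 * a with ha'
  have ha'0 : 0 ≤ a' := by positivity
  have ha'1 : a' ≤ 1 + 14 / 100000 := by rw [ha']; linarith
  have hθ0 : 0 < θ := by linarith
  have hpn : ‖p‖ ≤ a' + 1 / 67108864 := by
    have h1 := norm_le_norm_add_norm_sub' p (a' • e)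
    rw [norm_smul, he, mul_one, Real.norm_eq_abs, abs_of_nonneg ha'0] at h1
    linarith [hp.le, norm_sub_rev p (a' • e)]
  have hzn : ‖z‖ ≤ 1 + 3 / 524288 := by
    have h1 := norm_le_norm_add_norm_sub' z c
    linarith [hz.le, norm_sub_rev z c]
  have hwc : ‖p - c‖ ≤ a' + 1 / 67108864 + 1 / 524288 := (norm_sub_le _ _).trans (by linarith)
  by_cases hsmall : a' ≤ 4 / 5
  · exact Or.inl (seg_small hθ hθ1 hε hr1 hz.le (by linarith))
  push Not at hsmall
  have hpe : 78 / 100 ≤ ⟪p, e⟫ := by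
    have := inner_near_axis he hp
    linarith
  have hze : ⟪z, e⟫ ≤ 4 / 100 := by
    rw [mem_ball, dist_eq_norm, not_lt] at hzB
    have h1 := pow_le_pow_left₀ zero_le_one hzB 2
    rw [norm_shift_sq he] at h1
    have h2 := pow_le_pow_left₀ (norm_nonneg _) hzn 2
    linarith
  have hze' : -(101 / 100) ≤ ⟪z, e⟫ := by
    have := abs_real_inner_le_norm z e
    rw [he, mul_one] at this
    linarith [neg_abs_le ⟪z, e⟫]
  have hue : ⟪z + θ • (p - z), e⟫ = ⟪z, e⟫ + θ * (⟪p, e⟫ - ⟪z, e⟫) := by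
    rw [inner_add_left, real_inner_smul_left, inner_sub_left]
  by_cases hlow : ⟪z + θ • (p - z), e⟫ ≤ 1 / 16
  · left
    have hθ6 : θ ≤ 6 / 10 := by
      by_contra hcon
      push Not at hcon
      have : (6 / 10) * (⟪p, e⟫ - ⟪z, e⟫) < θ * (⟪p, e⟫ - ⟪z, e⟫) :=
        mul_lt_mul_of_pos_right hcon (by linarith)
      linarith
    have hpz : 74 / 100 ≤ ‖p - z‖ := by
      have := abs_real_inner_le_norm (p - z) e
      rw [he, mul_one, inner_sub_left] at this
      linarith [le_abs_self (⟪p, e⟫ - ⟪z, e⟫)]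
    exact seg_low hθ hθ6 hε hε' hr1 hr hz.le (by linarith) hpz
  · right
    exact seg_high he hθ0.le hθ1 (hzn.trans (by norm_num)) (hpn.trans (by linarith))
      (not_le.mp hlow)

/-- Mass at the enlarged unit ball. -/
def bigMass (g : X d → ℝ) : ℝ := mass 1 0 g (ball 0 (1 + tau))

lemma prof_pos_eq (g : X d → ℝ) (x : X d) : prof 1 0 g x = max (g x) 0 := by simp [prof]

lemma integrableOn_prof {g : X d → ℝ} (hg : Continuous g) (σ a : ℝ) (c : X d) (r : ℝ) :
    IntegrableOn (prof σ a g) (ball c r) volume :=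
  ((continuous_prof hg).continuousOn.integrableOn_compact
    (isCompact_closedBall c r)).mono_set ball_subset_closedBall

lemma integral_eq_mass_sub {g : X d → ℝ} (hg : Continuous g) (c : X d) (r : ℝ) :
    ∫ x in ball c r, g x = mass 1 0 g (ball c r) - mass (-1) 0 g (ball c r) := by
  have e : ∀ x, prof 1 0 g x - prof (-1) 0 g x = g x := fun x => by
    simp only [prof]
    rcases le_total 0 (g x) with h | h <;> simp [h]
  have := integral_sub (integrableOn_prof hg 1 0 c r) (integrableOn_prof hg (-1) 0 c r)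
  simp only [e] at this
  rw [this, mass_eq_integral hg, mass_eq_integral hg]

lemma mass_zero_of {g : X d → ℝ} (hg : Continuous g) (σ a : ℝ) {S : Set (X d)}
    (h : ∀ y ∈ S, prof σ a g y = 0) : mass σ a g S = 0 := by
  rw [mass_eq_integral hg]
  exact setIntegral_eq_zero_of_forall_eq_zero h

lemma tau_val : tau = 1 / 8192 := rfl

lemma tau'_val : tau' = 1 / 524288 := by rw [tau', tau]; norm_num

lemma del_val : del = 1 / 67108864 := rfl

lemma del_pos : 0 < del := by rw [del_val]; norm_num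

/-- The volume of a small ball. -/
def vDel (d : ℕ) : ℝ := del ^ d * omegaBall d

lemma vDel_pos (d : ℕ) : 0 < vDel d := mul_pos (pow_pos del_pos d) (omegaBall_pos d)

lemma vol_small (c : X d) : (volume (ball c del)).toReal = vDel d := vol_ball_real c del_pos

/-- A class ball of positive average with a small superlevel set. -/
structure SmallBall (g : X d → ℝ) (cB : X d) (rB η : ℝ) : Prop where
  cont : Continuous g
  gamma_ne : gamma g ≠ ⊤
  centre : ‖cB‖ ≤ tau'
  radius1 : 1 ≤ rB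
  radius2 : rB ≤ 1 + tau'
  avgpos : 0 < ∫ x in ball cB rB, g x
  small : (volume (ball cB rB ∩ {x | 0 < g x})).toReal ≤ η

namespace SmallBall

variable {g : X d → ℝ} {cB : X d} {rB η : ℝ}

lemma inner (h : SmallBall g cB rB η) {t : ℝ} (ht : t ≤ 1 - tau') :
    ball (0 : X d) t ⊆ ball cB rB :=
  ball_subset_ball' (by rw [dist_comm, dist_zero_right]; linarith [h.centre, h.radius1])

lemma norm_le (h : SmallBall g cB rB η) {x : X d} (hx : x ∈ ball cB rB) : ‖x‖ ≤ 1 + 2 * tau' := by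
  rw [mem_ball, dist_eq_norm] at hx
  have := norm_le_norm_add_norm_sub' x cB
  linarith [norm_sub_rev x cB, h.centre, h.radius2]

lemma zero_out (_h : SmallBall g cB rB η) {y : X d} (hy : y ∈ ball cB rB)
    (hyE : y ∉ ball cB rB ∩ {x | 0 < g x}) : prof 1 0 g y = 0 := by
  have : g y ≤ 0 := not_lt.mp fun hh => hyE ⟨hy, hh⟩
  simp [prof, this]

lemma measurableE (h : SmallBall g cB rB η) : MeasurableSet {x | 0 < g x} :=
  measurableSet_lt measurable_const h.cont.measurable

lemma neg_lt (h : SmallBall g cB rB η) :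
    mass (-1) 0 g (ball cB rB) < mass 1 0 g (ball cB rB) := by
  have := h.avgpos
  rw [integral_eq_mass_sub h.cont] at this
  linarith

/-- The short extrapolation towards the point beyond the centre of a small ball. -/
lemma short (h : SmallBall g cB rB η) {c : X d} {Q S : Set (X d)} (hQm : MeasurableSet Q)
    (hSm : MeasurableSet S) (hQs : Q ⊆ ball c del)
    (hSs : S ⊆ ball (((65536:ℝ) / 65535) • c) del) (hc : ‖c‖ ≤ 17 / 16) :
    ((volume S).toReal - η) * mass 1 0 g Q ≤
      (volume Q).toReal * mass 1 0 g S + (gamma g).toReal := by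
  have hy : ∀ x ∈ Q, ∀ p ∈ S, (65536:ℝ) • x + (-65535 : ℝ) • p ∈ ball (0 : X d) (1 / 2) := by
    intro x hx p hp
    have h1 := mem_ball.mp (hQs hx)
    have h2 := mem_ball.mp (hSs hp)
    rw [dist_eq_norm, del_val] at h1 h2
    have e : (65536:ℝ) • x + (-65535 : ℝ) • p
        = (65536:ℝ) • (x - c) + (-65535 : ℝ) • (p - ((65536:ℝ) / 65535) • c) := by module
    rw [mem_ball, dist_zero_right, e]
    refine lt_of_le_of_lt (norm_add_le _ _) ?_
    rw [norm_smul, norm_smul, Real.norm_eq_abs, Real.norm_eq_abs,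
      abs_of_nonneg (by norm_num : (0:ℝ) ≤ 65536),
      abs_of_nonpos (by norm_num : (-65535:ℝ) ≤ 0)]
    linarith
  have hS2 : S ⊆ ball 0 2 := fun p hp => by
    have h2 := mem_ball.mp (hSs hp)
    rw [dist_eq_norm, del_val] at h2
    rw [mem_ball, dist_zero_right]
    have := norm_le_norm_add_norm_sub' p (((65536:ℝ) / 65535) • c)
    rw [norm_smul, Real.norm_eq_abs, abs_of_nonneg (by norm_num : (0:ℝ) ≤ 65536 / 65535)] at this
    linarith [norm_sub_rev p (((65536:ℝ) / 65535) • c)]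
  have hcs : |((65536:ℝ) ^ d)⁻¹| ≤ 1 := by
    rw [abs_inv, abs_pow]
    exact inv_le_one_of_one_le₀ (one_le_pow₀ (by norm_num))
  have hκs : |((-65535 : ℝ) ^ d)⁻¹| ≤ 1 := by
    rw [abs_inv, abs_pow]
    exact inv_le_one_of_one_le₀ (one_le_pow₀ (by norm_num))
  have key := extrap_real h.cont (σ := 1) (a := 0) (Or.inl rfl) hQm
    (measurableSet_ball.inter h.measurableE)
    (isBounded_ball.subset hQs) (isBounded_ball.subset hSs)
    (isBounded_ball.subset Set.inter_subset_left) (by norm_num)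
    (abs_nonneg _) hcs h.gamma_ne hy
    (fun y hy' hyE => h.zero_out (h.inner (by rw [tau'_val]; norm_num) hy') hyE)
    (triple_short h.cont hQm hSm
      (fun x hx p hp => ball_subset_ball (by norm_num) (hy x hx p hp)) hS2)
  refine le_trans (mul_le_mul_of_nonneg_right (sub_le_sub_left ?_ _) (mass_nonneg _ _ _ _)) key
  calc _ ≤ 1 * η := mul_le_mul hκs h.small ENNReal.toReal_nonneg zero_le_one
    _ = η := one_mul η

/-- The positive mass of the class ball. -/
lemma inner_mass (h : SmallBall g cB rB η) (hη : 2 * η ≤ vDel d) {N : Finset (X d)}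
    (hN : ∀ c ∈ N, ‖c‖ ≤ 17 / 16) (hcov : closedBall (0 : X d) (17 / 16) ⊆ ⋃ c ∈ N, ball c del)
    {n : ℝ} (hn : (N.card : ℝ) ≤ n) :
    mass 1 0 g (ball cB rB) ≤
      n * ((2 * η * bigMass g + 2 * (gamma g).toReal) / vDel d) := by
  have hη0 : 0 ≤ η := le_trans ENNReal.toReal_nonneg h.small
  have hJ0 : 0 ≤ bigMass g := mass_nonneg _ _ _ _
  have hb : 0 ≤ (2 * η * bigMass g + 2 * (gamma g).toReal) / vDel d := by
    have := vDel_pos d
    positivity
  have hBEb : Bornology.IsBounded (ball cB rB ∩ {x | 0 < g x}) :=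
    isBounded_ball.subset Set.inter_subset_left
  have h1 : mass 1 0 g (ball cB rB) = mass 1 0 g (ball cB rB ∩ {x | 0 < g x}) := by
    rw [mass_eq_integral h.cont, mass_eq_integral h.cont]
    exact setIntegral_eq_of_subset_of_forall_sdiff_eq_zero measurableSet_ball
      Set.inter_subset_left fun y hy => h.zero_out hy.1 hy.2
  rw [h1]
  refine (mass_le_sum h.cont 1 0 hBEb N (fun c => ball c del) ?_).trans
    ((Finset.sum_le_card_nsmul N _ _ fun c hc => ?_).trans
      (le_of_eq_of_le (nsmul_eq_mul _ _) (mul_le_mul_of_nonneg_right hn hb)))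
  · intro x hx
    refine hcov ?_
    rw [mem_closedBall, dist_zero_right]
    have := h.norm_le hx.1
    rw [tau'_val] at this
    linarith
  rcases (ball cB rB ∩ {x | 0 < g x} ∩ ball c del).eq_empty_or_nonempty with
    hempty | ⟨x, hx, hxc⟩
  · rw [hempty, mass_zero_of h.cont 1 0 (fun y hy => absurd hy (Set.notMem_empty y))]
    exact hb
  have hin : ball (((65536:ℝ) / 65535) • c) del ⊆ ball (0 : X d) (1 + tau) := by
    refine ball_subset_ball' ?_
    rw [dist_zero_right, norm_smul, Real.norm_eq_abs,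
      abs_of_nonneg (by norm_num : (0:ℝ) ≤ 65536 / 65535)]
    rw [mem_ball, dist_eq_norm, del_val] at hxc
    have h2 := norm_le_norm_add_norm_sub' c x
    have h3 := h.norm_le hx.1
    rw [tau'_val] at h3
    rw [tau_val, del_val]
    linarith [norm_sub_rev c x]
  have key := h.short ((measurableSet_ball.inter h.measurableE).inter measurableSet_ball)
    measurableSet_ball (Set.inter_subset_right (s := ball cB rB ∩ {x | 0 < g x})) subset_rfl
    (hN c hc)
  rw [vol_small] at key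
  have hq : (volume (ball cB rB ∩ {x | 0 < g x} ∩ ball c del)).toReal ≤ η :=
    (ENNReal.toReal_mono hBEb.measure_lt_top.ne (measure_mono Set.inter_subset_left)).trans h.small
  have hpJ : mass 1 0 g (ball (((65536:ℝ) / 65535) • c) del) ≤ bigMass g :=
    mass_mono h.cont 1 0 isBounded_ball hin
  rw [le_div_iff₀ (vDel_pos d)]
  have h5 := mul_le_mul hq hpJ (mass_nonneg _ _ _ _) hη0
  have h6 := mul_le_mul_of_nonneg_right (by linarith : vDel d ≤ 2 * (vDel d - η))
    (mass_nonneg 1 0 g (ball cB rB ∩ {x | 0 < g x} ∩ ball c del))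
  linarith

/-- The low part of the class ball is small. -/
lemma low_small (h : SmallBall g cB rB η) {e₀ : ℝ} (he₀ : 0 < e₀) :
    (volume (ball cB rB ∩ {y | g y < -(mass 1 0 g (ball cB rB) / e₀)})).toReal ≤ e₀ := by
  set A := mass 1 0 g (ball cB rB)
  set aL := A / e₀ with haL
  have hA0 : 0 < A := lt_of_le_of_lt (mass_nonneg _ _ _ _) h.neg_lt
  set BL := ball cB rB ∩ {y | g y < -aL}
  have hBLm : MeasurableSet BL :=
    measurableSet_ball.inter (measurableSet_lt h.cont.measurable measurable_const)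
  have hBLb : Bornology.IsBounded BL := isBounded_ball.subset Set.inter_subset_left
  have h1 : aL * (volume BL).toReal ≤ mass (-1) 0 g (ball cB rB) := by
    refine le_trans ?_ (mass_mono h.cont (-1) 0 isBounded_ball (S := BL) Set.inter_subset_left)
    rw [mass_eq_integral h.cont]
    calc aL * (volume BL).toReal = ∫ _ in BL, aL := by
          rw [setIntegral_const, smul_eq_mul, mul_comm]; rfl
      _ ≤ ∫ x in BL, prof (-1) 0 g x := by
          refine setIntegral_mono_on (integrableOn_const (hBLb.measure_lt_top).ne)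
            ((integrableOn_prof h.cont _ _ cB rB).mono_set Set.inter_subset_left) hBLm
            fun x hx => ?_
          have : g x < -aL := hx.2
          simp only [prof]
          refine le_max_of_le_left ?_
          linarith
  have h2 : aL * (volume BL).toReal ≤ aL * e₀ := by
    rw [haL, div_mul_cancel₀ _ he₀.ne', ← haL]
    linarith [h.neg_lt]
  exact le_of_mul_le_mul_left h2 (by positivity)

/-- The long extrapolation. -/
lemma long (h : SmallBall g cB rB η) {aL : ℝ} (haL : 0 ≤ aL)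
    (hη : 15 ^ d * η ≤ vDel d / 4)
    (hlow : 15 ^ d * (volume (ball cB rB ∩ {y | g y < -aL})).toReal ≤ vDel d / 4)
    {h₀ l : X d} (hdist : ‖h₀ - l‖ ≤ 3 / 2) (hh : ‖h₀‖ ≤ 17 / 16) (hl : ‖l‖ ≤ 17 / 16) :
    mass 1 0 g (ball h₀ del) ≤ 4 * (gamma g).toReal / vDel d ∨
      mass (-1) aL g (ball l del) ≤ 4 * (gamma g).toReal / vDel d := by
  set E := {x : X d | 0 < g x}
  set p1 := (8:ℝ) • (h₀ + l) with hp1
  have hcl : |(((16:ℝ) / 15) ^ d)⁻¹| ≤ 1 := by
    rw [abs_inv, abs_pow]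
    exact inv_le_one_of_one_le₀ (one_le_pow₀ (by norm_num))
  have hκl : |((-1 / 15 : ℝ) ^ d)⁻¹| = (15:ℝ) ^ d := by
    rw [abs_inv, abs_pow, ← inv_pow]
    norm_num
  have hy : ∀ c : X d, ‖c - h₀‖ + ‖c - l‖ ≤ 3 / 2 → ∀ x ∈ ball c del, ∀ p ∈ ball p1 del,
      ((16:ℝ) / 15) • x + (-1 / 15 : ℝ) • p ∈ ball (0 : X d) (9 / 10) := by
    intro c hc x hx p hp
    rw [mem_ball, dist_eq_norm, del_val] at hp hx
    rw [mem_ball, dist_zero_right]
    have e : ((16:ℝ) / 15) • x + (-1 / 15 : ℝ) • p = ((8:ℝ) / 15) • ((c - h₀) + (c - l))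
        + ((16:ℝ) / 15) • (x - c) + (-1 / 15 : ℝ) • (p - p1) := by rw [hp1]; module
    rw [e]
    refine lt_of_le_of_lt norm_add₃_le ?_
    rw [norm_smul, norm_smul, norm_smul, Real.norm_eq_abs, Real.norm_eq_abs, Real.norm_eq_abs,
      abs_of_nonneg (by norm_num : (0:ℝ) ≤ 8 / 15), abs_of_nonneg (by norm_num : (0:ℝ) ≤ 16 / 15),
      abs_of_nonpos (by norm_num : (-1 / 15:ℝ) ≤ 0)]
    linarith [norm_add_le (c - h₀) (c - l)]
  have hyh := hy h₀ (by simpa using hdist)
  have hyl := hy l (by simpa [norm_sub_rev l h₀] using hdist)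
  have hS30 : ball p1 del ⊆ ball (0 : X d) 30 := by
    refine ball_subset_ball' ?_
    rw [dist_zero_right, hp1, norm_smul, Real.norm_eq_abs,
      abs_of_nonneg (by norm_num : (0:ℝ) ≤ 8), del_val]
    linarith [norm_add_le h₀ l]
  have hb1 : Bornology.IsBounded (ball p1 del ∩ E) := isBounded_ball.subset Set.inter_subset_left
  have hb2 : Bornology.IsBounded (ball p1 del \ E) := isBounded_ball.subset Set.sdiff_subset
  have hadd : (volume (ball p1 del ∩ E)).toReal + (volume (ball p1 del \ E)).toReal = vDel d := by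
    rw [← vol_small p1, ← measure_inter_add_sdiff (μ := volume) (ball p1 del) h.measurableE,
      ENNReal.toReal_add hb1.measure_lt_top.ne hb2.measure_lt_top.ne]
  have hB9 : ball (0 : X d) (9 / 10) ⊆ ball cB rB := h.inner (by rw [tau'_val]; norm_num)
  by_cases hhalf : vDel d / 2 ≤ (volume (ball p1 del \ E)).toReal
  · left
    have key := extrap_real h.cont (σ := 1) (a := 0) (Q := ball h₀ del) (S := ball p1 del \ E)
      (Or.inl rfl) measurableSet_ball (measurableSet_ball.inter h.measurableE) isBounded_ball hb2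
      (isBounded_ball.subset Set.inter_subset_left) (by norm_num) (abs_nonneg _) hcl h.gamma_ne
      (fun x hx p hp => hyh x hx p hp.1)
      (fun y hy' hyE => h.zero_out (hB9 hy') hyE)
      (triple_long h.cont measurableSet_ball (measurableSet_ball.diff h.measurableE)
        (fun x hx p hp => ball_subset_ball (by norm_num) (hyh x hx p hp.1))
        (Set.sdiff_subset.trans hS30))
    have hz : mass 1 0 g (ball p1 del \ E) = 0 := mass_zero_of h.cont 1 0 fun y hy' => by
      have : g y ≤ 0 := not_lt.mp fun hh => hy'.2 hh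
      simp [prof, this]
    rw [hz, hκl, mul_zero, zero_add] at key
    rw [le_div_iff₀ (vDel_pos d)]
    have h1 : (15:ℝ) ^ d * (volume (ball cB rB ∩ E)).toReal ≤ vDel d / 4 :=
      (mul_le_mul_of_nonneg_left h.small (by positivity)).trans hη
    have h' := mul_le_mul_of_nonneg_right (by linarith : vDel d / 4 ≤
      (volume (ball p1 del \ E)).toReal - 15 ^ d * (volume (ball cB rB ∩ E)).toReal)
      (mass_nonneg 1 0 g (ball h₀ del))
    linarith
  · right
    push Not at hhalf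
    have key := extrap_real h.cont (σ := -1) (a := aL) (Q := ball l del) (S := ball p1 del ∩ E)
      (Or.inr rfl) measurableSet_ball
      (measurableSet_ball.inter (measurableSet_lt h.cont.measurable measurable_const))
      isBounded_ball hb1 (isBounded_ball.subset Set.inter_subset_left) (by norm_num) (abs_nonneg _)
      hcl h.gamma_ne
      (fun x hx p hp => hyl x hx p hp.1)
      (fun y hy' (hyE : y ∉ ball cB rB ∩ {y | g y < -aL}) => by
        have : -aL ≤ g y := not_lt.mp fun hh => hyE ⟨hB9 hy', hh⟩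
        simp only [prof]
        exact max_eq_right (by linarith))
      (triple_long h.cont measurableSet_ball (measurableSet_ball.inter h.measurableE)
        (fun x hx p hp => ball_subset_ball (by norm_num) (hyl x hx p hp.1))
        (Set.inter_subset_left.trans hS30))
    have hz : mass (-1) aL g (ball p1 del ∩ E) = 0 := mass_zero_of h.cont _ _ fun y hy' => by
      have : 0 < g y := hy'.2
      simp only [prof]
      exact max_eq_right (by linarith)
    rw [hz, hκl, mul_zero, zero_add] at key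
    rw [le_div_iff₀ (vDel_pos d)]
    have h' := mul_le_mul_of_nonneg_right (by linarith : vDel d / 4 ≤
      (volume (ball p1 del ∩ E)).toReal -
        15 ^ d * (volume (ball cB rB ∩ {y | g y < -aL})).toReal)
      (mass_nonneg (-1) aL g (ball l del))
    linarith

end SmallBall

/-- A small ball meeting the moved ball outside the inner ball is near the rich small ball. -/
lemma near_rich {e : X d} (he : ‖e‖ = 1) {a : ℝ} (ha0 : 0 ≤ a) (ha : a ≤ 1 + tau + del)
    {w l : X d} (hw : w ∈ ball ((1 / 16 : ℝ) • e) 1) (hw2 : w ∉ ball (0 : X d) (1 - tau))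
    (hwl : w ∈ ball l del) : ‖a • e - l‖ ≤ 3 / 2 := by
  rw [tau_val, del_val] at ha
  rw [mem_ball, dist_eq_norm] at hw hwl
  rw [mem_ball, dist_zero_right, not_lt, tau_val] at hw2
  have hw0 := pow_le_pow_left₀ (by norm_num) hw2 2
  have hws := pow_le_pow_left₀ (norm_nonneg _) hw.le 2
  rw [norm_shift_sq he] at hws
  have hpos' : 0 ≤ ⟪w, e⟫ := by linarith
  have hwn : ‖w‖ ≤ 17 / 16 := by
    have := norm_le_norm_add_norm_sub' w ((1 / 16 : ℝ) • e)
    rw [norm_smul, he, mul_one] at this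
    norm_num at this
    linarith [norm_sub_rev w ((1 / 16 : ℝ) • e), hw.le]
  have hwh : ‖w - a • e‖ ≤ 149 / 100 := by
    refine (pow_le_pow_iff_left₀ (norm_nonneg _) (by norm_num) two_ne_zero).mp ?_
    rw [norm_shift_sq he]
    have h1 := pow_le_pow_left₀ (norm_nonneg _) hwn 2
    have h2 : a ^ 2 ≤ (1001 / 1000) ^ 2 := pow_le_pow_left₀ ha0 (by linarith) 2
    have h3 := mul_nonneg ha0 hpos'
    linarith
  have := norm_sub_le_norm_sub_add_norm_sub (a • e) w l
  rw [del_val] at hwl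
  linarith [norm_sub_rev (a • e) w, hwl.le]

/-- The negative mass of the moved ball. -/
lemma deficit {g : X d → ℝ} {cB : X d} {rB η : ℝ} (h : SmallBall g cB rB η) {aL : ℝ}
    (haL : 0 ≤ aL) {N : Finset (X d)}
    (hcov : closedBall (0 : X d) (17 / 16) ⊆ ⋃ c ∈ N, ball c del) {e : X d} (he : ‖e‖ = 1)
    {b n : ℝ} (hb : 0 ≤ b) (hn : (N.card : ℝ) ≤ n)
    (hl : ∀ l ∈ N, ((ball ((1 / 16 : ℝ) • e) 1 \ ball 0 (1 - tau)) ∩ ball l del).Nonempty →
      mass (-1) aL g (ball l del) ≤ b) :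
    mass (-1) 0 g (ball ((1 / 16 : ℝ) • e) 1) ≤
      aL * omegaBall d + mass 1 0 g (ball cB rB) + n * b := by
  set c' := (1 / 16 : ℝ) • e with hc'
  have hg := h.cont
  have hvolc : (volume (ball c' 1)).toReal = omegaBall d := by
    rw [vol_ball_real c' one_pos, one_pow, one_mul]
  have h1 : mass (-1) 0 g (ball c' 1) ≤ aL * omegaBall d + mass (-1) aL g (ball c' 1) := by
    rw [mass_eq_integral hg, mass_eq_integral hg]
    have hc : IntegrableOn (fun _ => aL) (ball c' 1) volume :=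
      integrableOn_const measure_ball_lt_top.ne
    calc ∫ x in ball c' 1, prof (-1) 0 g x ≤ ∫ x in ball c' 1, (aL + prof (-1) aL g x) := by
          refine setIntegral_mono_on (integrableOn_prof hg _ _ _ _)
            (hc.add (integrableOn_prof hg _ _ _ _)) measurableSet_ball fun x _ => ?_
          simp only [prof]
          have := le_max_left (-1 * g x - aL) 0
          have := le_max_right (-1 * g x - aL) 0
          exact max_le (by linarith) (by linarith)
      _ = _ := by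
          rw [integral_add hc (integrableOn_prof hg _ _ _ _), setIntegral_const, smul_eq_mul]
          congr 1
          rw [← hvolc, mul_comm]
          rfl
  refine h1.trans ?_
  rw [add_assoc]
  refine add_le_add le_rfl ?_
  have hdb : Bornology.IsBounded (ball c' 1 \ ball 0 (1 - tau)) :=
    isBounded_ball.subset Set.sdiff_subset
  have hsplit : mass (-1) aL g (ball c' 1)
      ≤ mass (-1) aL g (ball cB rB) + mass (-1) aL g (ball c' 1 \ ball 0 (1 - tau)) := by
    simp only [mass]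
    have fB := (lintegral_prof_lt_top hg (-1) aL (isBounded_ball (x := cB) (r := rB))).ne
    have fd := (lintegral_prof_lt_top hg (-1) aL hdb).ne
    rw [← ENNReal.toReal_add fB fd]
    refine ENNReal.toReal_mono (ENNReal.add_ne_top.mpr ⟨fB, fd⟩) ?_
    refine (lintegral_mono_set ?_).trans (lintegral_union_le _ _ _)
    intro x hx
    by_cases hx0 : x ∈ ball (0 : X d) (1 - tau)
    · exact Or.inl (h.inner (by rw [tau_val, tau'_val]; norm_num) hx0)
    · exact Or.inr ⟨hx, hx0⟩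
  refine hsplit.trans (add_le_add ?_ ?_)
  · refine le_trans ?_ h.neg_lt.le
    rw [mass_eq_integral hg, mass_eq_integral hg]
    refine setIntegral_mono_on (integrableOn_prof hg _ _ _ _) (integrableOn_prof hg _ _ _ _)
      measurableSet_ball fun x _ => ?_
    simp only [prof]
    exact max_le_max (by linarith) le_rfl
  · refine (mass_le_sum hg (-1) aL hdb N (fun c => ball c del) ?_).trans
      ((Finset.sum_le_card_nsmul N _ b fun l hlN => ?_).trans
        (le_of_eq_of_le (nsmul_eq_mul _ _) (mul_le_mul_of_nonneg_right hn hb)))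
    · intro x hx
      refine hcov ?_
      have h1 := mem_ball.mp hx.1
      rw [dist_eq_norm] at h1
      rw [mem_closedBall, dist_zero_right]
      have := norm_le_norm_add_norm_sub' x c'
      rw [hc', norm_smul, he, mul_one] at this
      norm_num at this
      linarith [norm_sub_rev x ((1 / 16 : ℝ) • e), h1.le]
    · rcases ((ball c' 1 \ ball 0 (1 - tau)) ∩ ball l del).eq_empty_or_nonempty with
        hempty | hne'
      · rw [hempty, mass_zero_of hg _ _ (fun y hy => absurd hy (Set.notMem_empty y))]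
        exact hb
      · exact (mass_mono hg _ _ isBounded_ball Set.inter_subset_right).trans (hl l hlN hne')

/-- The arithmetic at the end of the dichotomy. -/
lemma win_num {A G J AQ n w e₀ V C : ℝ} (hn : 1 ≤ n) (hw : 0 < w) (he0 : 0 < e₀) (he1 : e₀ ≤ 1)
    (hV : 0 < V) (heV : 8 * n ^ 2 * (w + 1) * e₀ ≤ V) (hA : 0 ≤ A) (hG : 0 ≤ G) (hJ : C * G < J)
    (hC : 4 * n * (1 + 4 * n) / V + 8 * n ^ 2 * (w + 1) / (e₀ * V) ≤ C)
    (hAJ : A ≤ n * ((2 * e₀ ^ 2 * J + 2 * G) / V)) (hJA : J ≤ n * AQ) :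
    A / e₀ * w + A + n * (4 * G / V) < AQ / 2 - G / V := by
  have hC0 : 0 ≤ C := le_trans (by positivity) hC
  have hJpos : 0 < J := lt_of_le_of_lt (mul_nonneg hC0 hG) hJ
  have hA' : A / e₀ * w + A ≤ (w + 1) / e₀ * A := by
    have h1 : A * 1 ≤ A * (1 / e₀) :=
      mul_le_mul_of_nonneg_left ((one_le_div he0).mpr he1) hA
    have : (w + 1) / e₀ * A = A / e₀ * w + A * (1 / e₀) := by ring
    linarith
  have hA3 : (w + 1) / e₀ * A
      ≤ 2 * n * (w + 1) * e₀ / V * J + 2 * n * (w + 1) / (e₀ * V) * G := by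
    refine (mul_le_mul_of_nonneg_left hAJ (by positivity)).trans (le_of_eq ?_)
    field_simp
  have hsm : 2 * n * (w + 1) * e₀ / V * J ≤ J / (4 * n) := by
    rw [div_mul_eq_mul_div, div_le_div_iff₀ hV (by positivity)]
    have := mul_le_mul_of_nonneg_right heV hJpos.le
    linarith
  have hJA' : J / (2 * n) ≤ AQ / 2 := by
    rw [div_le_div_iff₀ (by positivity) two_pos]
    linarith
  have hbig : G / V + n * (4 * G / V) + 2 * n * (w + 1) / (e₀ * V) * G < J / (4 * n) := by
    rw [lt_div_iff₀ (by positivity)]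
    refine lt_of_le_of_lt (le_trans (le_of_eq ?_) (mul_le_mul_of_nonneg_right hC hG)) hJ
    field_simp
    ring
  have : J / (2 * n) = J / (4 * n) + J / (4 * n) := by ring
  linarith

/-- The local dichotomy. -/
theorem dichotomy (hd : 1 ≤ d) : ∃ η κ C : ℝ, 0 < η ∧ 0 < κ ∧ 0 < C ∧
    ∀ g : X d → ℝ, Continuous g → ∀ (cB : X d) (rB : ℝ), ‖cB‖ ≤ tau' → 1 ≤ rB → rB ≤ 1 + tau' →
      0 < ∫ x in ball cB rB, g x →
      (volume (ball cB rB ∩ {x | 0 < g x})).toReal ≤ η →
      ENNReal.ofReal (bigMass g) ≤ ENNReal.ofReal C * gamma g ∨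
      ∃ (c' : X d) (T : Set (X d)), ‖c'‖ ≤ 1 / 16 ∧ 0 < ∫ x in ball c' 1, g x ∧
        MeasurableSet T ∧ T ⊆ ball c' 1 ∧ κ ≤ (volume (T ∩ {x | 0 < g x})).toReal ∧
        ∀ (c : X d) (r ε : ℝ), ‖c‖ ≤ tau' → 1 ≤ r → r ≤ 1 + tau' → 0 < ε → ε ≤ tau' →
          ∀ z ∈ ball c (r + ε) \ (ball c r ∪ ball c' 1), ∀ p ∈ T, ∀ θ : ℝ,
            Lseg * ε ≤ θ → θ ≤ 1 → z + θ • (p - z) ∈ ball c r ∪ ball c' 1 := by
  obtain ⟨Ns, hNsub, hNfin, hNcov⟩ :=
    finite_cover_balls_of_compact (isCompact_closedBall (0 : X d) (17 / 16)) del_pos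
  obtain ⟨N, rfl⟩ := hNfin.exists_finset_coe
  have hN : ∀ h ∈ N, ‖h‖ ≤ 17 / 16 := fun h hh => by simpa using hNsub hh
  have hcov : closedBall (0 : X d) (17 / 16) ⊆ ⋃ c ∈ N, ball c del := by simpa using hNcov
  have hω : 0 < omegaBall d := omegaBall_pos d
  set ω := omegaBall d with hωdef
  have hV0 : 0 < vDel d := vDel_pos d
  set V := vDel d with hV
  set n : ℝ := (N.card : ℝ) + 1 with hn
  have hn1 : 1 ≤ n := by simp [hn]
  have hNc : (N.card : ℝ) ≤ n := by simp [hn]
  set e₀ := min 1 (V / (16 * (15:ℝ) ^ d * n ^ 2 * (ω + 1))) with he₀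
  have he0 : 0 < e₀ := lt_min one_pos (by positivity)
  have he1 : e₀ ≤ 1 := min_le_left _ _
  have heV : 16 * (15:ℝ) ^ d * n ^ 2 * (ω + 1) * e₀ ≤ V := by
    have := min_le_right (1:ℝ) (V / (16 * (15:ℝ) ^ d * n ^ 2 * (ω + 1)))
    rw [← he₀, le_div_iff₀ (by positivity)] at this
    linarith
  have h15 : (1:ℝ) ≤ 15 ^ d := one_le_pow₀ (by norm_num)
  have he15 : 16 * (15:ℝ) ^ d * e₀ ≤ V := by
    refine le_trans ?_ heV
    have : (1:ℝ) * 1 ≤ n ^ 2 * (ω + 1) :=
      mul_le_mul (one_le_pow₀ hn1) (by linarith) zero_le_one (by positivity)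
    have := mul_le_mul_of_nonneg_left this (by positivity : (0:ℝ) ≤ 16 * 15 ^ d * e₀)
    linarith
  have he8 : 8 * n ^ 2 * (ω + 1) * e₀ ≤ V := by
    refine le_trans ?_ heV
    have := mul_le_mul_of_nonneg_left h15 (by positivity : (0:ℝ) ≤ n ^ 2 * (ω + 1) * e₀)
    have : 0 ≤ n ^ 2 * (ω + 1) * e₀ := by positivity
    linarith
  have hsq : e₀ ^ 2 ≤ e₀ := by rw [sq]; exact mul_le_of_le_one_left he0.le he1
  have he15' : (1:ℝ) * e₀ ≤ 15 ^ d * e₀ := mul_le_mul_of_nonneg_right h15 he0.le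
  have h15sq : (15:ℝ) ^ d * e₀ ^ 2 ≤ 15 ^ d * e₀ := mul_le_mul_of_nonneg_left hsq (by positivity)
  set C := 4 * n * (1 + 4 * n) / V + 8 * n ^ 2 * (ω + 1) / (e₀ * V) + 4 * n / V + 1 with hC
  refine ⟨e₀ ^ 2, V / 4, C, by positivity, by positivity, by positivity, ?_⟩
  intro g hg cB rB hcB hr1 hr2 hpos hsmallE
  by_cases hΓ : gamma g = ⊤
  · left
    rw [hΓ, ENNReal.mul_top]
    · exact le_top
    · simp only [ne_eq, ENNReal.ofReal_eq_zero, not_le]
      positivity
  have S : SmallBall g cB rB (e₀ ^ 2) := ⟨hg, hΓ, hcB, hr1, hr2, hpos, hsmallE⟩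
  set G := (gamma g).toReal with hG
  have hG0 : 0 ≤ G := ENNReal.toReal_nonneg
  by_cases hJ : bigMass g ≤ C * G
  · left
    rw [← ENNReal.ofReal_toReal hΓ, ← ENNReal.ofReal_mul (by positivity)]
    exact ENNReal.ofReal_le_ofReal hJ
  right
  push Not at hJ
  set A := mass 1 0 g (ball cB rB) with hA
  have hA0 : 0 < A := lt_of_le_of_lt (mass_nonneg _ _ _ _) S.neg_lt
  have hAJ : A ≤ n * ((2 * e₀ ^ 2 * bigMass g + 2 * G) / V) :=
    S.inner_mass (by linarith) hN hcov hNc
  -- the richest small ball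
  have hR1 : ball (0 : X d) (1 + tau) ⊆ ⋃ c ∈ N, ball c del :=
    (ball_subset_closedBall.trans
      (closedBall_subset_closedBall (by rw [tau_val]; norm_num))).trans hcov
  set J := bigMass g with hJdef
  have hJpos : 0 < J := lt_of_le_of_lt (by positivity) hJ
  obtain ⟨h₀, hh₀, hbest⟩ :
      ∃ h ∈ N, J ≤ n * mass 1 0 g (ball (0 : X d) (1 + tau) ∩ ball h del) := by
    by_contra hcon
    push Not at hcon
    have hJ' : J ≤ ∑ c ∈ N, mass 1 0 g (ball (0 : X d) (1 + tau) ∩ ball c del) :=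
      mass_le_sum hg 1 0 isBounded_ball N _ hR1
    have : ∑ c ∈ N, mass 1 0 g (ball (0 : X d) (1 + tau) ∩ ball c del) ≤ N.card * (J / n) := by
      refine (Finset.sum_le_card_nsmul N _ (J / n) fun c hc => ?_).trans
        (le_of_eq (nsmul_eq_mul _ _))
      rw [le_div_iff₀ (by positivity), mul_comm]
      exact (hcon c hc).le
    have h2 : (N.card : ℝ) * (J / n) < J := by
      rw [mul_div_assoc', div_lt_iff₀ (by positivity), hn]
      linarith
    linarith
  set AQ := mass 1 0 g (ball h₀ del) with hAQ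
  have hJA : J ≤ n * AQ := hbest.trans (mul_le_mul_of_nonneg_left
    (mass_mono hg 1 0 isBounded_ball Set.inter_subset_right) (by linarith))
  have hQbad : ¬ AQ ≤ 4 * G / V := fun hle => by
    have h1 : n * AQ ≤ n * (4 * G / V) := mul_le_mul_of_nonneg_left hle (by linarith)
    have h2 : 4 * n / V ≤ C := by
      rw [hC]
      have : 0 ≤ 4 * n * (1 + 4 * n) / V + 8 * n ^ 2 * (ω + 1) / (e₀ * V) := by positivity
      linarith
    have h3 := mul_le_mul_of_nonneg_right h2 hG0
    have h4 : n * (4 * G / V) = 4 * n / V * G := by ring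
    linarith
  have hh1 : ‖h₀‖ ≤ 1 + tau + del := by
    obtain ⟨x, hx1, hx2⟩ : (ball (0 : X d) (1 + tau) ∩ ball h₀ del).Nonempty := by
      by_contra hcon
      rw [Set.not_nonempty_iff_eq_empty] at hcon
      rw [hcon, mass_zero_of hg 1 0 (fun y hy => absurd hy (Set.notMem_empty y))] at hbest
      linarith
    rw [mem_ball, dist_eq_norm] at hx1 hx2
    rw [sub_zero] at hx1
    have := norm_le_norm_add_norm_sub' h₀ x
    linarith [norm_sub_rev h₀ x]
  obtain ⟨e, he, hhe⟩ := exists_unit hd h₀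
  set a := ‖h₀‖ with ha
  have ha0 : 0 ≤ a := norm_nonneg _
  set p0 := ((65536:ℝ) / 65535 * a) • e with hp0
  have hp0' : ((65536:ℝ) / 65535) • h₀ = p0 := by rw [hp0, hhe, smul_smul]
  have hP0in : ball p0 del ⊆ ball ((1 / 16 : ℝ) • e) 1 := by
    refine ball_subset_ball' ?_
    rw [dist_eq_norm, hp0, ← sub_smul, norm_smul, he, mul_one, Real.norm_eq_abs]
    rw [tau_val, del_val] at hh1
    rw [del_val, ← le_sub_iff_add_le', abs_le]
    constructor <;> linarith
  -- the target is rich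
  have hP0E : V / 4 ≤ (volume (ball p0 del ∩ {x | 0 < g x})).toReal := by
    by_contra hcon
    push Not at hcon
    have h := S.short (c := h₀) (measurableSet_ball (x := h₀) (ε := del))
      (measurableSet_ball.diff S.measurableE) subset_rfl
      (by rw [hp0']; exact Set.sdiff_subset) (hN h₀ hh₀)
    have hz : mass 1 0 g (ball p0 del \ {x | 0 < g x}) = 0 := mass_zero_of hg 1 0 fun y hy => by
      have : g y ≤ 0 := not_lt.mp fun hh => hy.2 hh
      simp [prof, this]
    have hd' : (volume (ball p0 del \ {x | 0 < g x})).toReal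
        = V - (volume (ball p0 del ∩ {x | 0 < g x})).toReal := by
      have := measure_inter_add_sdiff (μ := volume) (ball p0 del) S.measurableE
      rw [hV, ← vol_small p0, ← this, ENNReal.toReal_add, add_sub_cancel_left]
      · exact ((isBounded_ball.subset Set.inter_subset_left).measure_lt_top).ne
      · exact ((isBounded_ball.subset Set.sdiff_subset).measure_lt_top).ne
    rw [hz, hd', mul_zero, zero_add] at h
    refine hQbad ?_
    rw [le_div_iff₀ hV0]
    have : V / 4 * AQ ≤ (V - (volume (ball p0 del ∩ {x | 0 < g x})).toReal - e₀ ^ 2) * AQ :=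
      mul_le_mul_of_nonneg_right (by linarith) (mass_nonneg _ _ _ _)
    linarith
  -- the gain at the translated ball
  have hgain : AQ / 2 - G / V ≤ mass 1 0 g (ball ((1 / 16 : ℝ) • e) 1) := by
    have h := S.short (c := h₀) (measurableSet_ball (x := h₀) (ε := del))
      (measurableSet_ball (x := p0) (ε := del)) subset_rfl (by rw [hp0']) (hN h₀ hh₀)
    rw [vol_small, vol_small] at h
    have hm := mul_le_mul_of_nonneg_left (mass_mono hg 1 0 isBounded_ball hP0in) hV0.le
    have h' : V / 2 * AQ ≤ (V - e₀ ^ 2) * AQ :=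
      mul_le_mul_of_nonneg_right (by linarith) (mass_nonneg _ _ _ _)
    refine le_of_mul_le_mul_left ?_ hV0
    rw [mul_sub, mul_div_cancel₀ _ hV0.ne']
    linarith
  have haL0 : 0 ≤ A / e₀ := div_nonneg hA0.le he0.le
  have hlow15 : 15 ^ d * (volume (ball cB rB ∩ {y | g y < -(A / e₀)})).toReal ≤ V / 4 := by
    have := mul_le_mul_of_nonneg_left (S.low_small he0) (by positivity : (0:ℝ) ≤ 15 ^ d)
    rw [← hA] at this
    linarith
  have hdef := deficit S haL0 hcov he (by positivity : 0 ≤ 4 * G / V) hNc fun l hl hne => by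
    obtain ⟨w, ⟨hw1, hw2⟩, hwl⟩ := hne
    have hdist := near_rich he ha0 hh1 hw1 hw2 hwl
    rw [← hhe] at hdist
    exact (S.long haL0 (by linarith) hlow15 hdist (hN h₀ hh₀) (hN l hl)).resolve_left hQbad
  have hwin : 0 < ∫ x in ball ((1 / 16 : ℝ) • e) 1, g x := by
    rw [integral_eq_mass_sub hg]
    have := win_num (C := C) hn1 hω he0 he1 hV0 he8 hA0.le hG0 hJ
      (by rw [hC]
          linarith [div_nonneg (by linarith : 0 ≤ 4 * n) hV0.le]) hAJ hJA
    linarith
  refine ⟨(1 / 16 : ℝ) • e, ball p0 del, ?_, hwin, measurableSet_ball, hP0in, hP0E, ?_⟩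
  · rw [norm_smul, he, mul_one]
    norm_num
  intro c r ε hc hr hr' hε hεt z hz p hp θ hθ hθ1
  exact segment_mem he ha0 hh1 hc hr hr' hε hεt hz.1 (fun h => hz.2 (Or.inr h)) hp hθ hθ1

end Vale.Agent.P137
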