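import Vale.Agent.P137.Defs

/-!
Extrapolation along triples.
-/

open MeasureTheory Metric
open scoped ENNReal

noncomputable section

namespace Vale.Agent.P137

variable {d : ℕ}

lemma N3_nonneg_x (a b c : ℝ) : 0 ≤ N3 a b c := by
  have := abs_sub_le a b c
  unfold N3
  linarith

lemma N3_symm (a b c : ℝ) : N3 a b c = N3 c b a := by
  unfold N3
  rw [abs_sub_comm a b, abs_sub_comm b c, abs_sub_comm a c]
  ring

lemma sub_max_le_N3 (a b c : ℝ) : b - max a c ≤ N3 a b c := by
  unfold N3
  rcases le_total a c with h | h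
  · rw [max_eq_right h, abs_of_nonpos (sub_nonpos.mpr h)]
    linarith [neg_le_abs (a - b), le_abs_self (b - c)]
  · rw [max_eq_left h, abs_of_nonneg (sub_nonneg.mpr h)]
    linarith [neg_le_abs (a - b), le_abs_self (b - c)]

lemma min_sub_le_N3 (a b c : ℝ) : min a c - b ≤ N3 a b c := by
  have h := sub_max_le_N3 (-a) (-b) (-c)
  have e : N3 (-a) (-b) (-c) = N3 a b c := by
    unfold N3
    rw [neg_sub_neg, neg_sub_neg, neg_sub_neg, abs_sub_comm b a, abs_sub_comm c b,
      abs_sub_comm c a]
  rw [e, max_neg_neg] at h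
  linarith

/-- The profile `(σ (g - a))₊` used in extrapolation. -/
def prof (σ a : ℝ) (g : X d → ℝ) (x : X d) : ℝ := max (σ * g x - a) 0

lemma prof_le {σ a : ℝ} (hσ : σ = 1 ∨ σ = -1) (g : X d → ℝ) (y x p : X d)
    (hy : prof σ a g y = 0) :
    prof σ a g x ≤ prof σ a g p + N3 (g y) (g x) (g p) := by
  have hn := N3_nonneg_x (g y) (g x) (g p)
  have hy' : σ * g y - a ≤ 0 := by
    have := le_max_left (σ * g y - a) 0
    rw [prof] at hy
    linarith
  have h1 := le_max_left (σ * g p - a) 0
  have h2 := le_max_right (σ * g p - a) 0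
  unfold prof
  refine max_le ?_ (by linarith)
  rcases hσ with rfl | rfl
  · have := sub_max_le_N3 (g y) (g x) (g p)
    rcases le_total (g y) (g p) with h | h
    · rw [max_eq_right h] at this; linarith
    · rw [max_eq_left h] at this; linarith
  · have := min_sub_le_N3 (g y) (g x) (g p)
    rcases le_total (g y) (g p) with h | h
    · rw [min_eq_left h] at this; linarith
    · rw [min_eq_right h] at this; linarith

lemma continuous_prof {σ a : ℝ} {g : X d → ℝ} (hg : Continuous g) : Continuous (prof σ a g) := by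
  unfold prof; fun_prop

/-- Change of variables along a line map. -/
lemma lintegral_affine (F : X d → ℝ≥0∞) {a : ℝ} (ha : a ≠ 0) (b : X d) :
    ∫⁻ y, F (a • y + b) = ENNReal.ofReal |(a ^ d)⁻¹| * ∫⁻ z, F z := by
  have h1 : ∫⁻ y, F (a • y + b) = ∫⁻ z, F (z + b) ∂(Measure.map (fun y => a • y) volume) :=
    ((Homeomorph.smulOfNeZero a ha).toMeasurableEquiv.measurableEmbedding.lintegral_map
      (fun z => F (z + b))).symm
  rw [h1, Measure.map_addHaar_smul _ ha, lintegral_smul_measure, smul_eq_mul,
    finrank_euclideanSpace_fin, lintegral_add_right_eq_self]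

/-- A set pulled back along a line map. -/
lemma volume_affine {s : Set (X d)} (hs : MeasurableSet s) {a : ℝ} (ha : a ≠ 0) (b : X d) :
    volume {y | a • y + b ∈ s} = ENNReal.ofReal |(a ^ d)⁻¹| * volume s := by
  have hm : MeasurableSet {y : X d | a • y + b ∈ s} := by
    exact (by fun_prop : Measurable fun y : X d => a • y + b) hs
  have h := lintegral_affine (s.indicator 1) ha b
  rw [lintegral_indicator_one hs] at h
  rw [← h, ← lintegral_indicator_one hm]
  rfl

/-- Pairs `(x, p)` with base point `y = a x + b p`. -/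
lemma extrap {g : X d → ℝ} (hg : Continuous g) {σ a : ℝ} (hσ : σ = 1 ∨ σ = -1)
    {Q S B Y : Set (X d)} (hQ : MeasurableSet Q) (hB : MeasurableSet B)
    {α β : ℝ} (hβ : β ≠ 0)
    (hmem : ∀ x ∈ Q, ∀ p ∈ S, α • x + β • p ∈ Y)
    (hzero : ∀ y ∈ Y, y ∉ B → prof σ a g y = 0) :
    volume S * ∫⁻ x in Q, ENNReal.ofReal (prof σ a g x) ≤
      volume Q * (∫⁻ p in S, ENNReal.ofReal (prof σ a g p)) +
      (∫⁻ x in Q, ∫⁻ p in S, ENNReal.ofReal (N3 (g (α • x + β • p)) (g x) (g p))) +
      ENNReal.ofReal |(β ^ d)⁻¹| * volume B * ∫⁻ x in Q, ENNReal.ofReal (prof σ a g x) := by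
  set u := fun x => ENNReal.ofReal (prof σ a g x) with hu
  have hum : Measurable u := (continuous_prof hg).measurable.ennreal_ofReal
  have key : ∀ x ∈ Q, volume S * u x ≤ (∫⁻ p in S, u p) +
      (∫⁻ p in S, ENNReal.ofReal (N3 (g (α • x + β • p)) (g x) (g p))) +
      ENNReal.ofReal |(β ^ d)⁻¹| * volume B * u x := by
    intro x hx
    set Bd := {p : X d | β • p + α • x ∈ B} with hBd
    have hBdm : MeasurableSet Bd := (by fun_prop : Measurable fun p : X d => β • p + α • x) hB
    have hvol : volume Bd = ENNReal.ofReal |(β ^ d)⁻¹| * volume B := volume_affine hB hβ _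
    have hN : Measurable fun p => ENNReal.ofReal (N3 (g (α • x + β • p)) (g x) (g p)) := by
      unfold N3; fun_prop
    calc volume S * u x = ∫⁻ _ in S, u x := by rw [setLIntegral_const, mul_comm]
      _ ≤ ∫⁻ p in S, (u p + ENNReal.ofReal (N3 (g (α • x + β • p)) (g x) (g p)) +
            Bd.indicator (fun _ => u x) p) := by
          refine setLIntegral_mono (by measurability) fun p hp => ?_
          by_cases hb : p ∈ Bd
          · rw [Set.indicator_of_mem hb]
            exact le_add_self
          · rw [Set.indicator_of_notMem hb, add_zero]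
            have hb' : α • x + β • p ∉ B := fun h => hb (by simpa [hBd, add_comm] using h)
            simp only [hu]
            rw [← ENNReal.ofReal_add (show 0 ≤ prof σ a g p from le_max_right _ _) (N3_nonneg_x _ _ _)]
            exact ENNReal.ofReal_le_ofReal
              (prof_le hσ g _ _ _ (hzero _ (hmem x hx p hp) hb'))
      _ ≤ _ := by
          rw [lintegral_add_left (show Measurable fun p => u p +
              ENNReal.ofReal (N3 (g (α • x + β • p)) (g x) (g p)) from hum.add hN),
            lintegral_add_left hum]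
          refine add_le_add le_rfl ?_
          refine (setLIntegral_le_lintegral _ _).trans ?_
          rw [lintegral_indicator hBdm, setLIntegral_const, hvol, mul_comm]
  have hNm : Measurable fun x => ∫⁻ p in S,
      ENNReal.ofReal (N3 (g (α • x + β • p)) (g x) (g p)) := by
    refine Measurable.lintegral_prod_right' (ν := volume.restrict S)
      (f := fun q : X d × X d => ENNReal.ofReal (N3 (g (α • q.1 + β • q.2)) (g q.1) (g q.2))) ?_
    unfold N3; fun_prop
  calc volume S * ∫⁻ x in Q, u x = ∫⁻ x in Q, volume S * u x :=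
        (lintegral_const_mul _ hum).symm
    _ ≤ ∫⁻ x in Q, ((∫⁻ p in S, u p) +
        (∫⁻ p in S, ENNReal.ofReal (N3 (g (α • x + β • p)) (g x) (g p))) +
        ENNReal.ofReal |(β ^ d)⁻¹| * volume B * u x) := setLIntegral_mono' hQ key
    _ = _ := by
        rw [lintegral_add_left (show Measurable fun x => (∫⁻ p in S, u p) +
            ∫⁻ p in S, ENNReal.ofReal (N3 (g (α • x + β • p)) (g x) (g p)) from
            measurable_const.add hNm), lintegral_add_left measurable_const,
          setLIntegral_const, lintegral_const_mul _ hum, mul_comm (∫⁻ p in S, u p)]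

/-- The unit-scale triple functional. -/
def gamma (g : X d → ℝ) : ℝ≥0∞ :=
  (∫⁻ y in ball (0 : X d) 2, ∫⁻ p in ball y 32,
      ENNReal.ofReal (N3 (g y) (g (node mShort y p)) (g p))) +
  ∫⁻ y in ball (0 : X d) 2, ∫⁻ p in ball y 32,
      ENNReal.ofReal (N3 (g y) (g (node mLong y p)) (g p))

lemma measurable_N3_node {g : X d → ℝ} (hg : Continuous g) (m : ℕ) :
    Measurable fun q : X d × X d => ENNReal.ofReal (N3 (g q.1) (g (node m q.1 q.2)) (g q.2)) := by
  unfold N3 node; fun_prop

/-- Long triples: `x` near the base. -/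
lemma triple_long {g : X d → ℝ} (hg : Continuous g) {Q S : Set (X d)} (hQ : MeasurableSet Q)
    (hS : MeasurableSet S)
    (hy : ∀ x ∈ Q, ∀ p ∈ S, ((16:ℝ) / 15) • x + (-1 / 15 : ℝ) • p ∈ ball (0 : X d) 2)
    (hS40 : S ⊆ ball 0 30) :
    ∫⁻ x in Q, ∫⁻ p in S,
        ENNReal.ofReal (N3 (g (((16:ℝ) / 15) • x + (-1 / 15 : ℝ) • p)) (g x) (g p)) ≤
      ENNReal.ofReal |(((16:ℝ) / 15) ^ d)⁻¹| * gamma g := by
  set F := fun q : X d × X d => ENNReal.ofReal (N3 (g q.1) (g (node mLong q.1 q.2)) (g q.2))
    with hF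
  have hFm : Measurable F := measurable_N3_node hg mLong
  have e : ∀ x p : X d,
      ENNReal.ofReal (N3 (g (((16:ℝ) / 15) • x + (-1 / 15 : ℝ) • p)) (g x) (g p))
        = F (((16:ℝ) / 15) • x + (-1 / 15 : ℝ) • p, p) := by
    intro x p
    simp only [hF]
    congr 3
    unfold node mLong
    norm_num
    module
  simp only [e]
  set D := ball (0 : X d) 2 ×ˢ S with hD
  have hDm : MeasurableSet D := measurableSet_ball.prod hS
  calc ∫⁻ x in Q, ∫⁻ p in S, F (((16:ℝ) / 15) • x + (-1 / 15 : ℝ) • p, p)
      = ∫⁻ p in S, ∫⁻ x in Q, F (((16:ℝ) / 15) • x + (-1 / 15 : ℝ) • p, p) := by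
        refine lintegral_lintegral_swap ?_
        exact (hFm.comp (by fun_prop)).aemeasurable
    _ ≤ ∫⁻ p in S, ∫⁻ x, D.indicator F (((16:ℝ) / 15) • x + (-1 / 15 : ℝ) • p, p) := by
        refine setLIntegral_mono' hS fun p hp => ?_
        refine le_trans (le_of_eq ?_) (setLIntegral_le_lintegral Q _)
        refine setLIntegral_congr_fun hQ fun x hx => ?_
        rw [Set.indicator_of_mem (Set.mk_mem_prod (hy x hx p hp) hp)]
    _ = ∫⁻ p in S, ENNReal.ofReal |(((16:ℝ) / 15) ^ d)⁻¹| *
          ∫⁻ y, D.indicator F (y, p) := by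
        refine lintegral_congr fun p => ?_
        rw [lintegral_affine (fun y => D.indicator F (y, p)) (by norm_num : (16:ℝ) / 15 ≠ 0)]
    _ = ENNReal.ofReal |(((16:ℝ) / 15) ^ d)⁻¹| * ∫⁻ y, ∫⁻ p in S, D.indicator F (y, p) := by
        rw [lintegral_const_mul' _ _ ENNReal.ofReal_ne_top]
        congr 1
        exact lintegral_lintegral_swap
          (((hFm.indicator hDm).comp (by fun_prop)).aemeasurable)
    _ ≤ _ := by
        refine mul_le_mul_right ?_ _
        refine le_trans ?_ le_add_self
        rw [← lintegral_indicator measurableSet_ball]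
        refine lintegral_mono fun y => ?_
        by_cases hyb : y ∈ ball (0 : X d) 2
        · rw [Set.indicator_of_mem hyb]
          refine le_trans (setLIntegral_mono' hS fun p hp => ?_)
            (lintegral_mono_set (t := ball y 32) ?_)
          · exact Set.indicator_le_self _ _ _
          · intro p hp
            have h1 := mem_ball.mp (hS40 hp)
            have h2 := mem_ball.mp hyb
            rw [mem_ball]
            linarith [dist_triangle_right p y (0 : X d)]
        · rw [Set.indicator_of_notMem hyb]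
          refine le_of_eq ?_
          rw [← lintegral_zero (μ := volume.restrict S)]
          refine lintegral_congr fun p => ?_
          exact Set.indicator_of_notMem (fun h => hyb h.1) _

/-- Short triples: `x` near the far end. -/
lemma triple_short {g : X d → ℝ} (hg : Continuous g) {Q S : Set (X d)} (hQ : MeasurableSet Q)
    (hS : MeasurableSet S)
    (hy : ∀ x ∈ Q, ∀ p ∈ S, (65536:ℝ) • x + (-65535 : ℝ) • p ∈ ball (0 : X d) 2)
    (hS2 : S ⊆ ball 0 2) :
    ∫⁻ x in Q, ∫⁻ p in S,
        ENNReal.ofReal (N3 (g ((65536:ℝ) • x + (-65535 : ℝ) • p)) (g x) (g p)) ≤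
      ENNReal.ofReal |((65536:ℝ) ^ d)⁻¹| * gamma g := by
  set F := fun q : X d × X d => ENNReal.ofReal (N3 (g q.1) (g (node mShort q.1 q.2)) (g q.2))
    with hF
  have hFm : Measurable F := measurable_N3_node hg mShort
  have e : ∀ x p : X d, ENNReal.ofReal (N3 (g ((65536:ℝ) • x + (-65535 : ℝ) • p)) (g x) (g p))
        = F (p, (65536:ℝ) • x + (-65535 : ℝ) • p) := by
    intro x p
    simp only [hF]
    rw [N3_symm]
    congr 3
    unfold node mShort
    norm_num
    module
  simp only [e]
  calc ∫⁻ x in Q, ∫⁻ p in S, F (p, (65536:ℝ) • x + (-65535 : ℝ) • p)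
      = ∫⁻ p in S, ∫⁻ x in Q, F (p, (65536:ℝ) • x + (-65535 : ℝ) • p) := by
        refine lintegral_lintegral_swap ?_
        exact (hFm.comp (by fun_prop)).aemeasurable
    _ ≤ ∫⁻ p in S, ∫⁻ x,
          (ball p 32).indicator (fun q => F (p, q)) ((65536:ℝ) • x + (-65535 : ℝ) • p) := by
        refine setLIntegral_mono' hS fun p hp => ?_
        refine le_trans (le_of_eq ?_) (setLIntegral_le_lintegral Q _)
        refine setLIntegral_congr_fun hQ fun x hx => ?_
        rw [Set.indicator_of_mem]
        have h1 := mem_ball.mp (hS2 hp)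
        have h2 := mem_ball.mp (hy x hx p hp)
        rw [mem_ball]
        linarith [dist_triangle_right ((65536:ℝ) • x + (-65535 : ℝ) • p) p (0 : X d)]
    _ = ∫⁻ p in S, ENNReal.ofReal |((65536:ℝ) ^ d)⁻¹| * ∫⁻ q in ball p 32, F (p, q) := by
        refine lintegral_congr fun p => ?_
        rw [lintegral_affine _ (by norm_num : (65536:ℝ) ≠ 0),
          lintegral_indicator measurableSet_ball]
    _ ≤ _ := by
        rw [lintegral_const_mul' _ _ ENNReal.ofReal_ne_top]
        refine mul_le_mul_right ?_ _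
        exact (lintegral_mono_set hS2).trans le_self_add

end Vale.Agent.P137
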